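import Mathlib

/-! Six unimodular orthogonal frames in dimension six that are pairwise unbiased: monomial sums
and the linear identities between their triple products. -/

namespace Vale.Agent.P355

open Finset ComplexConjugate

abbrev Fr := Fin 6 → Fin 6 → Fin 6 → ℂ
abbrev Zv := Fin 6 → ℤ

structure Good (u : Fr) : Prop where
  unit : ∀ k i c, u k i c * conj (u k i c) = 1
  orth : ∀ k i j, ∑ c, u k i c * conj (u k j c) = if i = j then 6 else 0
  unb : ∀ k l, k ≠ l → ∀ i j,
    (∑ c, u k i c * conj (u l j c)) * (∑ c, conj (u k i c) * u l j c) = 6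

def prm (u : Fr) (σ : Equiv.Perm (Fin 6)) : Fr := fun k i c => u k i (σ c)

theorem Good.prm {u : Fr} (h : Good u) (σ : Equiv.Perm (Fin 6)) : Good (prm u σ) where
  unit k i c := h.unit k i (σ c)
  orth k i j := by
    rw [← h.orth k i j]
    exact Equiv.sum_comp σ (fun c => u k i c * conj (u k j c))
  unb k l hkl i j := by
    rw [← h.unb k l hkl i j]
    exact congrArg₂ (· * ·) (Equiv.sum_comp σ (fun c => u k i c * conj (u l j c)))
      (Equiv.sum_comp σ (fun c => conj (u k i c) * u l j c))

noncomputable def mon (v : Fin 6 → ℂ) (a : Zv) : ℂ := ∏ c, v c ^ a c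
noncomputable def tau (u : Fr) (k : Fin 6) (a : Zv) : ℂ := ∑ i, mon (u k i) a
noncomputable def phi (u : Fr) (a : Zv) : ℂ := ∑ k, tau u k a
noncomputable def sel (u : Fr) (b : Bool) (k : Fin 6) (a : Zv) : ℂ :=
  if b then phi u a else tau u k a
noncomputable def T3 (u : Fr) (b0 b1 b2 : Bool) (a b c : Zv) : ℂ :=
  if b0 && b1 && b2 then phi u a * phi u b * phi u c
  else ∑ k, sel u b0 k a * sel u b1 k b * sel u b2 k c
noncomputable def TT (u : Fr) (m : ℕ) (a b : Zv) : ℂ :=
  T3 u (m.testBit 0) (m.testBit 1) (m.testBit 2) a b (-a - b)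
noncomputable def valZ (u : Fr) (m : ℕ) (a b : Zv) : ℝ :=
  ∑ σ : Equiv.Perm (Fin 6), (TT (prm u σ) m a b).re
def ee (r : Fin 6) : Zv := fun c => if c = r then 1 else 0

section mono
variable {v : Fin 6 → ℂ} (hv : ∀ c, v c * conj (v c) = 1)
include hv

theorem ne0 (c : Fin 6) : v c ≠ 0 := fun h => by simpa [h] using hv c

theorem mon_add (a b : Zv) : mon v (a + b) = mon v a * mon v b := by
  simp only [mon, Pi.add_apply, zpow_add₀ (ne0 hv _), prod_mul_distrib]

theorem mon_neg (a : Zv) : mon v (-a) = conj (mon v a) := by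
  simp only [mon, Pi.neg_apply, map_prod, map_zpow₀]
  refine prod_congr rfl fun c _ => ?_
  rw [eq_inv_of_mul_eq_one_right (hv c), zpow_neg, inv_zpow]

theorem mon_norm (a : Zv) : ‖mon v a‖ = 1 := by
  have h1 : ∀ c, ‖v c‖ = 1 := fun c => by
    have h := congrArg norm (hv c)
    rw [norm_mul, Complex.norm_conj, norm_one] at h
    nlinarith [norm_nonneg (v c)]
  simp [mon, norm_prod, norm_zpow, h1]

omit hv in
theorem mon_ee (r : Fin 6) : mon v (ee r) = v r := by
  unfold mon ee
  rw [prod_eq_single r]
  · simp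
  · intro c _ hc
    simp [hc]
  · simp

theorem mon_sub_ee (a : Zv) (r : Fin 6) : mon v (a - ee r) = mon v a * conj (v r) := by
  rw [sub_eq_add_neg, mon_add hv, mon_neg hv, mon_ee]

theorem mon_add_ee (a : Zv) (r : Fin 6) : mon v (a + ee r) = mon v a * v r := by
  rw [mon_add hv, mon_ee]

end mono

theorem mon_zero (v : Fin 6 → ℂ) : mon v 0 = 1 := by simp [mon]

theorem tau_zero (u : Fr) (k : Fin 6) : tau u k 0 = 6 := by simp [tau, mon_zero]

theorem phi_zero (u : Fr) : phi u 0 = 36 := by
  simp [phi, tau_zero]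
  norm_num

variable {u : Fr} (h : Good u)
include h

theorem tau_neg (k : Fin 6) (a : Zv) : tau u k (-a) = conj (tau u k a) := by
  simp only [tau, map_sum, mon_neg (h.unit k _)]

theorem phi_neg (a : Zv) : phi u (-a) = conj (phi u a) := by
  simp only [phi, map_sum, tau_neg h]

theorem sel_neg (b : Bool) (k : Fin 6) (a : Zv) : sel u b k (-a) = conj (sel u b k a) := by
  cases b <;> simp [sel, tau_neg h, phi_neg h]

theorem tau_norm (k : Fin 6) (a : Zv) : ‖tau u k a‖ ≤ 6 := by
  refine (norm_sum_le _ _).trans ?_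
  simp [mon_norm (h.unit k _)]

theorem phi_norm (a : Zv) : ‖phi u a‖ ≤ 36 := by
  refine (norm_sum_le _ _).trans ((sum_le_sum fun k _ => tau_norm h k a).trans ?_)
  simp
  norm_num

theorem tau_E1 (k : Fin 6) (a b : Zv) :
    ∑ r, tau u k (a + ee r) * tau u k (b - ee r) = tau u k (a + b) * tau u k 0 := by
  have h1 : ∀ r, tau u k (a + ee r) * tau u k (b - ee r) =
      ∑ i, ∑ j, mon (u k i) a * mon (u k j) b * (u k i r * conj (u k j r)) := fun r => by
    simp only [tau, mon_add_ee (h.unit k _), mon_sub_ee (h.unit k _), sum_mul_sum]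
    exact sum_congr rfl fun i _ => sum_congr rfl fun j _ => by ring
  simp only [h1]
  rw [sum_comm, tau_zero, tau, sum_mul]
  refine sum_congr rfl fun i _ => ?_
  rw [sum_comm]
  simp only [← mul_sum, h.orth]
  simp [mon_add (h.unit k i)]

theorem tau_E2 (k l : Fin 6) (a b : Zv) :
    ∑ r, ∑ t, tau u k (a + ee r - ee t) * tau u l (b - ee r + ee t) =
      if k = l then 36 * tau u k (a + b) else 6 * tau u k a * tau u l b := by
  have h1 : ∀ r t, tau u k (a + ee r - ee t) * tau u l (b - ee r + ee t) =
      ∑ i, ∑ j, mon (u k i) a * mon (u l j) b *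
        ((u k i r * conj (u l j r)) * (conj (u k i t) * u l j t)) := fun r t => by
    simp only [tau, mon_add_ee (h.unit _ _), mon_sub_ee (h.unit _ _), sum_mul_sum]
    exact sum_congr rfl fun i _ => sum_congr rfl fun j _ => by ring
  have h2 : ∑ r, ∑ t, tau u k (a + ee r - ee t) * tau u l (b - ee r + ee t) =
      ∑ i, ∑ j, mon (u k i) a * mon (u l j) b *
        ((∑ r, u k i r * conj (u l j r)) * ∑ t, conj (u k i t) * u l j t) := by
    simp only [h1]
    rw [sum_comm_cycle]
    refine (sum_congr rfl fun i _ => ?_)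
    rw [sum_comm_cycle]
    refine (sum_congr rfl fun j _ => ?_)
    rw [sum_mul_sum, mul_sum]
    exact sum_congr rfl fun r _ => by rw [mul_sum]
  rw [h2]
  split_ifs with hkl
  · subst hkl
    have h3 : ∀ i j, ∑ t, conj (u k i t) * u k j t = if j = i then 6 else 0 := fun i j => by
      rw [← h.orth k j i]
      exact sum_congr rfl fun t _ => mul_comm _ _
    simp only [h.orth, h3, tau, mul_sum]
    refine sum_congr rfl fun i _ => ?_
    rw [sum_eq_single i]
    · simp [mon_add (h.unit k i)]
      ring
    · intro j _ hj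
      simp [hj]
    · simp
  · simp only [h.unb k l hkl, tau, mul_sum, sum_mul]
    rw [sum_comm]
    exact sum_congr rfl fun i _ => sum_congr rfl fun j _ => by ring

theorem phi_E2 (k : Fin 6) (a b : Zv) :
    ∑ r, ∑ t, (if r = t then 0 else tau u k (a + ee r - ee t) * phi u (b - ee r + ee t)) =
      6 * (tau u k (a + b) * tau u k 0) - 6 * (tau u k a * tau u k b) := by
  have h1 : ∑ r, ∑ t, tau u k (a + ee r - ee t) * phi u (b - ee r + ee t) =
      36 * tau u k (a + b) + (6 * tau u k a * phi u b - 6 * tau u k a * tau u k b) := by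
    simp only [phi, mul_sum]
    rw [sum_comm_cycle]
    simp only [tau_E2 h]
    have h2 : ∀ l, (if k = l then 36 * tau u k (a + b) else 6 * tau u k a * tau u l b) =
        (if k = l then 36 * tau u k (a + b) - 6 * tau u k a * tau u k b else 0) +
          6 * tau u k a * tau u l b := fun l => by
      split_ifs with hl
      · subst hl
        ring
      · ring
    simp only [h2, sum_add_distrib, sum_ite_eq, mem_univ, if_true]
    ring
  have h3 : ∀ r t, tau u k (a + ee r - ee t) * phi u (b - ee r + ee t) =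
      (if r = t then 0 else tau u k (a + ee r - ee t) * phi u (b - ee r + ee t)) +
        if r = t then tau u k a * phi u b else 0 := fun r t => by
    split_ifs with hrt
    · subst hrt
      simp
    · simp
  rw [sum_congr rfl fun r _ => sum_congr rfl fun t _ => h3 r t] at h1
  simp only [sum_add_distrib, sum_ite_eq, mem_univ, if_true, sum_const, card_univ,
    Fintype.card_fin, nsmul_eq_mul] at h1
  rw [tau_zero]
  push_cast at h1
  linear_combination h1

end Vale.Agent.P355
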