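import Vale.Agent.P355.MData

/-! Kernel evaluation of the certificate. -/

namespace Vale.Agent.P355

theorem cert_pool : ∀ i < 6, ∀ c < 6, 5 ≤ pa dP i c ∧ pa dP i c ≤ 11 := by decide +kernel

theorem cert_leaf : dLL.flatten.all (chkL dVn dV) = true := by decide +kernel

theorem cert_chain : (dLL.flatten.map fun l => lc l.lf).IsChain (· < ·) := by decide +kernel

theorem cert_len : dLL.flatten.length = 720 := by decide +kernel

theorem cert_bound : Nat.blt (totB dLt dEE dD) YY = true := by decide +kernel

theorem cert_main : last dG dD (Nat.add (Nat.add (partP dG dT0 dT1 dT2 dLt dP dLL)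
    (partE dG dEE)) (cst dG dD)) = true := by decide +kernel

theorem not_good (u : Fr) : ¬ Good u :=
  sound cert_pool (List.all_eq_true.1 cert_leaf) cert_chain cert_len cert_bound cert_main u

end Vale.Agent.P355
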