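import Vale.Agent.P355.MTab

/-! The linear relations as rows of a certificate. -/

namespace Vale.Agent.P355

open Finset

def ok2 (c : ℕ) : Bool :=
  decide (2 ≤ c / 16 ∧ c / 16 ≤ 14 ∧ 2 ≤ c % 16 ∧ c % 16 ≤ 14 ∧ 9 ≤ c / 16 + c % 16 ∧
    c / 16 + c % 16 ≤ 23)
noncomputable def okr (R : ℕ) : Bool :=
  Nat.beq (loop 6 fun i => frc (col R i) fun c => cnd (ok2 c) 0 1) 0
noncomputable def ud (R r t i : ℕ) : ℕ :=
  Nat.sub (Nat.add (col R i) (cnd (Nat.beq i r) 15 0)) (cnd (Nat.beq i t) 15 0)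
def hs (R i : ℕ) : ℕ := 16 * (col R i / 16 + col R i % 16 - 8) + 8
def h4 (R i : ℕ) : ℕ := 16 * (col R i / 16) + (16 - col R i / 16)
def lam (R : ℕ) : ℤ := Int.subNatNat (Nat.shiftRight R 51) 18446744073709551616
def dp (R : ℕ) : ℕ := pn (lam R)
def dm (R : ℕ) : ℕ := pn (Int.neg (lam R))
noncomputable def e1 (t : Tab) (R s : ℕ) : ℕ :=
  Nat.add (loop 6 fun r => put t 5 s (msc (ud R r 6)) (dp R)) (put t 5 s (msc (hs R)) (dm R))
noncomputable def e2 (t : Tab) (R s s' : ℕ) : ℕ :=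
  Nat.add (Nat.add
    (loop 6 fun r => loop 6 fun k => cnd (Nat.beq r k) 0 (put t 5 s (msc (ud R r k)) (dp R)))
    (put t 5 s' (msc (col R)) (Nat.mul 6 (dp R)))) (put t 5 s' (msc (hs R)) (Nat.mul 6 (dm R)))
noncomputable def e0 (t : Tab) (R K s s' : ℕ) : ℕ :=
  Nat.add (put t 5 s K (dp R)) (put t 5 s' K (Nat.mul 6 (dm R)))
noncomputable def row (t : Tab) (R : ℕ) : ℕ :=
  cnd (okr R) (cnd (Nat.beq (tag R) 0) (e1 t R 0) (cnd (Nat.beq (tag R) 1) (e1 t R 4)
    (cnd (Nat.beq (tag R) 2) (e2 t R 2 0) (cnd (Nat.beq (tag R) 3) (e2 t R 3 4)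
      (cnd (Nat.beq (tag R) 4) (e0 t R (msc (h4 R)) 4 0) (e0 t R (msc (hs R)) 3 4))))))
    (pz (Nat.mul 5 (sz t)))
def rw116 (dat n : ℕ) : ℕ := Nat.land (Nat.shiftRight dat (Nat.mul 116 n)) 83076749736557242056487941267521535
noncomputable def rows (t : Tab) (dat n : ℕ) : ℕ := loop n fun k => row t (rw116 dat k)
noncomputable def rowsB (dat n : ℕ) : ℕ := loop n fun k => Nat.mul 48 (lam (rw116 dat k)).natAbs

theorem put1 (u : Fr) (t : Tab) {s : ℕ} (hs : s < 5) (c : ℕ → ℕ) (k : ℕ) (z : ℤ) :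
    Rep (5 * sz t) (FT u t 5) (put t 5 s (msc c) (k * pn z)) (k * z.natAbs)
      (k * z * val u (ms s) c) := by
  have := put_rep u t (S := 5) (s := s) (m := 0) c (by omega) ((Dig.pn z).smul k) hs
  rw [zero_add] at this
  exact this.mono le_rfl (by simp)

theorem put0 (u : Fr) (t : Tab) {s : ℕ} (hs : s < 5) (c : ℕ → ℕ) (z : ℤ) :
    Rep (5 * sz t) (FT u t 5) (put t 5 s (msc c) (pn z)) z.natAbs (z * val u (ms s) c) := by
  simpa using put1 u t hs c 1 z

section
variable {R : ℕ} (hR : okr R = true)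
include hR

theorem okr_col (i : Fin 6) : ∃ x y, col R i = 16 * x + y ∧ 2 ≤ x ∧ x ≤ 14 ∧ 2 ≤ y ∧ y ≤ 14 ∧
    9 ≤ x + y ∧ x + y ≤ 23 ∧ va (col R) i = x - 8 ∧ vb (col R) i = y - 8 := by
  simp only [okr, loop_eq, frc_eq, cnd_eq, Nat.beq_eq, sum_eq_zero_iff] at hR
  have h1 := hR i (mem_range.2 i.2)
  have h2 : ok2 (col R i) = true := by
    by_contra h
    simp [h] at h1
  rw [ok2, decide_eq_true_eq] at h2
  have h3 := da_mk (x := col R i / 16) (y := col R i % 16) (by omega)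
  rw [Nat.div_add_mod] at h3
  exact ⟨col R i / 16, col R i % 16, (Nat.div_add_mod _ _).symm, by omega, by omega, by omega,
    by omega, by omega, by omega, h3.1, h3.2⟩

theorem v_ud (r k : ℕ) (hrk : r ≠ k) (i : Fin 6) :
    va (ud R r k) i = va (col R) i + (if (i : ℕ) = r then 1 else 0) - (if (i : ℕ) = k then 1 else 0)
    ∧ vb (ud R r k) i =
      vb (col R) i - (if (i : ℕ) = r then 1 else 0) + (if (i : ℕ) = k then 1 else 0) := by
  obtain ⟨x, y, h1, h2, h3, h4, h5, h6, h7, h8, h9⟩ := okr_col hR i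
  rw [h8, h9]
  simp only [va, vb, ud, cnd_eq, Nat.beq_eq, h1, Nat.add_eq, Nat.sub_eq]
  split_ifs with ha hb
  · omega
  · have := da_mk (x := x + 1) (y := y - 1) (by omega)
    rw [show 16 * x + y + 15 - 0 = 16 * (x + 1) + (y - 1) by omega]
    omega
  · have := da_mk (x := x - 1) (y := y + 1) (by omega)
    rw [show 16 * x + y + 0 - 15 = 16 * (x - 1) + (y + 1) by omega]
    omega
  · have := da_mk (x := x) (y := y) (by omega)
    rw [show 16 * x + y + 0 - 0 = 16 * x + y by omega]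
    omega

theorem v_hs : va (hs R) = va (col R) + vb (col R) ∧ vb (hs R) = 0 := by
  have h : ∀ i : Fin 6, va (hs R) i = va (col R) i + vb (col R) i ∧ vb (hs R) i = 0 := fun i => by
    obtain ⟨x, y, h1, h2, h3, h4, h5, h6, h7, h8, h9⟩ := okr_col hR i
    have := da_mk (x := x + y - 8) (y := 8) (by omega)
    rw [h8, h9]
    simp only [va, vb, hs, h1]
    rw [show (16 * x + y) / 16 + (16 * x + y) % 16 - 8 = x + y - 8 by omega]
    omega
  exact ⟨funext fun i => (h i).1, funext fun i => (h i).2⟩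

theorem v_h4 : vb (h4 R) = -va (h4 R) := funext fun i => by
  obtain ⟨x, y, h1, h2, h3, h4, h5, h6, h7, h8, h9⟩ := okr_col hR i
  have := da_mk (x := x) (y := 16 - x) (by omega)
  simp only [va, vb, P355.h4, h1, Pi.neg_apply]
  rw [show (16 * x + y) / 16 = x by omega]
  omega

theorem val_ud (u : Fr) (m : ℕ) (r k : Fin 6) (hrk : r ≠ k) : val u m (ud R r k) =
    valZ u m (va (col R) + ee r - ee k) (vb (col R) - ee r + ee k) := by
  have h := v_ud hR r k (fun h => hrk (Fin.ext h))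
  simp only [Fin.val_inj] at h
  have ea : va (ud R r k) = va (col R) + ee r - ee k := funext fun i => by
    rw [(h i).1, Pi.sub_apply, Pi.add_apply, ee, ee]
  have eb : vb (ud R r k) = vb (col R) - ee r + ee k := funext fun i => by
    rw [(h i).2, Pi.add_apply, Pi.sub_apply, ee, ee]
  rw [val, ea, eb]

theorem val_up (u : Fr) (m : ℕ) (r : Fin 6) : val u m (ud R r 6) =
    valZ u m (va (col R) + ee r) (vb (col R) - ee r) := by
  have h := v_ud hR r 6 r.2.ne
  have h6 : ∀ i : Fin 6, (i : ℕ) ≠ 6 := fun i => i.2.ne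
  simp only [Fin.val_inj, h6, if_false, sub_zero, add_zero] at h
  have ea : va (ud R r 6) = va (col R) + ee r := funext fun i => by
    rw [(h i).1, Pi.add_apply, ee]
  have eb : vb (ud R r 6) = vb (col R) - ee r := funext fun i => by
    rw [(h i).2, Pi.sub_apply, ee]
  rw [val, ea, eb]

variable {u : Fr} (h : Good u)
include h

theorem e1_rep (t : Tab) (s : ℕ) (hs : s = 0 ∨ s = 4) :
    Rep (5 * sz t) (FT u t 5) (e1 t R s) (48 * (lam R).natAbs) 0 := by
  have h5 : s < 5 := by omega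
  have hm : ms s = 0 ∨ ms s = 4 := by rcases hs with rfl | rfl <;> simp [ms]
  refine ((Rep.loop 6 fun r _ => put0 u t h5 (ud R r 6) (lam R)).add
    (put0 u t h5 (P355.hs R) (-lam R))).mono (by simp; omega) ?_
  rw [← mul_sum, ← Fin.sum_univ_eq_sum_range (fun r => val u (ms s) (ud R r 6))]
  simp only [val_up hR]
  rw [valZ_E1 h _ hm, val, (v_hs hR).1, (v_hs hR).2]
  push_cast
  ring

theorem e2_rep (t : Tab) (s s' : ℕ) (hs : s = 2 ∧ s' = 0 ∨ s = 3 ∧ s' = 4) :
    Rep (5 * sz t) (FT u t 5) (e2 t R s s') (48 * (lam R).natAbs) 0 := by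
  have h5 : s < 5 := by omega
  have h5' : s' < 5 := by omega
  have hm : ms s = 2 ∧ ms s' = 0 ∨ ms s = 7 ∧ ms s' = 4 := by
    rcases hs with ⟨rfl, rfl⟩ | ⟨rfl, rfl⟩ <;> simp [ms]
  have h1 : ∀ r k, Rep (5 * sz t) (FT u t 5)
      (cnd (Nat.beq r k) 0 (put t 5 s (msc (ud R r k)) (dp R))) (lam R).natAbs
      (lam R * if r = k then 0 else val u (ms s) (ud R r k)) := fun r k => by
    simp only [cnd_eq, Nat.beq_eq]
    split_ifs
    · exact (Rep.zero _ _).mono (Nat.zero_le _) (mul_zero _)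
    · exact put0 u t h5 _ _
  refine (((Rep.loop 6 fun r _ => Rep.loop 6 fun k _ => h1 r k).add
    (put1 u t h5' (col R) 6 (lam R))).add
    (put1 u t h5' (P355.hs R) 6 (-lam R))).mono (by simp; omega) ?_
  simp only [← mul_sum]
  rw [← Fin.sum_univ_eq_sum_range
    (fun r => ∑ k ∈ range 6, if r = k then 0 else val u (ms s) (ud R r k))]
  have h2 : ∀ r : Fin 6, ∑ k ∈ range 6, (if (r : ℕ) = k then 0 else val u (ms s) (ud R r k)) =
      ∑ k : Fin 6, if r = k then 0 else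
        valZ u (ms s) (va (col R) + ee r - ee k) (vb (col R) - ee r + ee k) := fun r => by
    rw [← Fin.sum_univ_eq_sum_range (fun k => if (r : ℕ) = k then 0 else val u (ms s) (ud R r k))]
    refine sum_congr rfl fun k _ => ?_
    simp only [Fin.val_inj]
    split_ifs with hk
    · rfl
    · exact val_ud hR u _ r k hk
  simp only [h2]
  rw [valZ_E2 h _ _ hm, val, val, (v_hs hR).1, (v_hs hR).2]
  push_cast
  ring

omit hR h in
theorem e0_rep (t : Tab) (s s' : ℕ) (hs : s < 5) (hs' : s' < 5) (c : ℕ → ℕ)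
    (hc : val u (ms s) c = 6 * val u (ms s') c) :
    Rep (5 * sz t) (FT u t 5) (e0 t R (msc c) s s') (48 * (lam R).natAbs) 0 := by
  refine ((put0 u t hs c (lam R)).add (put1 u t hs' c 6 (-lam R))).mono (by simp; omega) ?_
  rw [hc]
  push_cast
  ring

end

theorem row_rep {u : Fr} (h : Good u) (t : Tab) (R : ℕ) :
    Rep (5 * sz t) (FT u t 5) (row t R) (48 * (lam R).natAbs) 0 := by
  simp only [row, cnd_eq]
  split_ifs with hR
  · exact e1_rep hR h t 0 (by simp)
  · exact e1_rep hR h t 4 (by simp)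
  · exact e2_rep hR h t 2 0 (by simp)
  · exact e2_rep hR h t 3 4 (by simp)
  · refine e0_rep t 4 0 (by omega) (by omega) _ ?_
    rw [val, val, v_h4 hR]
    exact valZ_E0B u _
  · refine e0_rep t 3 4 (by omega) (by omega) _ ?_
    rw [val, val, (v_hs hR).2]
    exact valZ_E0C u _
  · exact Or.inl (pz_eq _).ge

theorem rows_rep {u : Fr} (h : Good u) (t : Tab) (dat n : ℕ) :
    Rep (5 * sz t) (FT u t 5) (rows t dat n) (rowsB dat n) 0 :=
  (Rep.loop n fun k _ => row_rep h t (rw116 dat k)).mono (loop_eq _ _).ge (by simp)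

end Vale.Agent.P355
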