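import Vale.Agent.P355.MJob
import Vale.Agent.P355.MRow

/-! Soundness of the certificate checker. -/

namespace Vale.Agent.P355

open Finset

noncomputable def partP (G T0 T1 T2 : Tab) (Lt P : ℕ) (LL : List (List Leaf)) : ℕ :=
  Nat.add (Nat.add (stage G T0 (grp T0 Lt P LL 0 0)) (stage G T1 (grp T1 Lt P LL 0 3)))
    (stage G T2 (grp T2 Lt P LL 3 3))
noncomputable def partE (G : Tab) (EE : List (Tab × ℕ × ℕ)) : ℕ :=
  lsum EE fun x => stage G x.1 (rows x.1 x.2.1 x.2.2)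
noncomputable def totB (Lt : ℕ) (EE : List (Tab × ℕ × ℕ)) (d : ℕ) : ℕ :=
  Nat.add (Nat.add (Nat.add (Nat.add (grpB Lt 0 0) (grpB Lt 0 3)) (grpB Lt 3 3))
    (lsum EE fun x => rowsB x.2.1 x.2.2)) d
noncomputable def last (G : Tab) (d N : ℕ) : Bool :=
  Nat.blt N (pz (Nat.mul 1 (sz G))) && Nat.blt (fin G N) (Nat.mul 1296 d)
noncomputable def cst (G : Tab) (d : ℕ) : ℕ := put G 1 0 (msc fun _ => 136) d

theorem partE_rep {u : Fr} (h : Good u) (G : Tab) (EE : List (Tab × ℕ × ℕ))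
    (hB : (lsum EE fun x => rowsB x.2.1 x.2.2) < YY) :
    Rep (1 * sz G) (FT u G 1) (partE G EE) (lsum EE fun x => rowsB x.2.1 x.2.2) 0 := by
  induction EE with
  | nil => exact Rep.zero _ _
  | cons x L ih =>
    have hB' : (lsum L fun x => rowsB x.2.1 x.2.2) + rowsB x.2.1 x.2.2 < YY := hB
    exact ((ih (by omega)).add (stage_rep h G x.1 (rows_rep h x.1 _ _) (by omega))).mono le_rfl
      (by simp)

theorem sound {n V : Fin 7 → ℕ} {LL : List (List Leaf)} {G T0 T1 T2 : Tab} {Lt P d : ℕ}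
    {EE : List (Tab × ℕ × ℕ)} (hP : ∀ i < 6, ∀ c < 6, 5 ≤ pa P i c ∧ pa P i c ≤ 11)
    (h1 : ∀ l ∈ LL.flatten, chkL n V l = true)
    (h2 : (LL.flatten.map fun l => lc l.lf).IsChain (· < ·)) (h3 : LL.flatten.length = 720)
    (hB : Nat.blt (totB Lt EE d) YY = true)
    (hc : last G d (Nat.add (Nat.add (partP G T0 T1 T2 Lt P LL) (partE G EE)) (cst G d)) = true)
    (u : Fr) : ¬ Good u := fun h => by
  simp only [totB, Nat.blt_eq, Nat.add_eq] at hB
  simp only [last, Bool.and_eq_true, Nat.blt_eq, pz_eq, Nat.add_eq, Nat.mul_eq] at hc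
  have hD : Dig 1 d d fun _ => (d : ℤ) :=
    ⟨fun _ => d, fun _ => 0, by simp, by simp, fun _ _ => by simp⟩
  have r0 := put_rep u G (S := 1) (s := 0) (m := 0) (fun _ => 136) (by omega) hD le_rfl
  rw [zero_add] at r0
  have r1 := (((((stage_rep h G T0 (grp_rep hP u T0 Lt h1 h2 h3 (i0 := 0) (j0 := 0) (by omega)
    (by omega)) (by omega)).add
    (stage_rep h G T1 (grp_rep hP u T1 Lt h1 h2 h3 (i0 := 0) (j0 := 3) (by omega)
    (by omega)) (by omega))).add
    (stage_rep h G T2 (grp_rep hP u T2 Lt h1 h2 h3 (i0 := 3) (j0 := 3) (by omega)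
    (by omega)) (by omega))).add (partE_rep h G EE (by omega))).add r0)
  have r2 := fin_bound h G r1 hc.1 hB
  have r3 := grp_nonneg h n V Lt P _ fun _ _ => rfl
  have r4 : val u 0 (fun _ => 136) = 720 * 1296 := valZ_const u
  have r5 : ((fin G (partP G T0 T1 T2 Lt P LL + partE G EE + cst G d) : ℕ) : ℝ) < 1296 * d := by
    exact_mod_cast hc.2
  simp only [sum_range_one, add_zero, ms, r4, Int.cast_natCast, OfNat.zero_ne_ofNat,
    if_false] at r2
  have r6 : fin G (stage G T0 (grp T0 Lt P LL 0 0) + stage G T1 (grp T1 Lt P LL 0 3) +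
      stage G T2 (grp T2 Lt P LL 3 3) + partE G EE + put G 1 0 (msc fun _ => 136) d) =
      fin G (partP G T0 T1 T2 Lt P LL + partE G EE + cst G d) := rfl
  rw [r6] at r2
  linarith

end Vale.Agent.P355
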