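import Mathlib

/-! Fixed points of unital trace preserving Kraus maps, and joint eigenbases. -/

namespace Vale.Agent.P355

open Finset Matrix ComplexConjugate
open scoped ComplexOrder

abbrev M6 := Matrix (Fin 6) (Fin 6) ℂ

theorem fix_comm {ι : Type*} [Fintype ι] (b : ι → M6) (h1 : ∑ j, (b j)ᴴ * b j = 1)
    (h2 : ∑ j, b j * (b j)ᴴ = 1) (X : M6) (hX : ∑ j, b j * X * (b j)ᴴ = X) (j : ι) :
    b j * X = X * b j := by
  have hX' : ∑ j, b j * Xᴴ * (b j)ᴴ = Xᴴ := by
    have := congrArg conjTranspose hX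
    simpa only [conjTranspose_sum, conjTranspose_mul, conjTranspose_conjTranspose,
      Matrix.mul_assoc] using this
  have e : ∀ j, ((b j * X - X * b j)ᴴ * (b j * X - X * b j)).trace =
      (Xᴴ * ((b j)ᴴ * b j) * X).trace + (Xᴴ * X * (b j * (b j)ᴴ)).trace -
      (X * (b j * Xᴴ * (b j)ᴴ)).trace - (Xᴴ * (b j * X * (b j)ᴴ)).trace := fun j => by
    have a1 : ((b j)ᴴ * Xᴴ * (X * b j)).trace = (Xᴴ * X * (b j * (b j)ᴴ)).trace := by
      rw [Matrix.mul_assoc, trace_mul_comm]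
      simp only [Matrix.mul_assoc]
    have a2 : (Xᴴ * (b j)ᴴ * (X * b j)).trace = (X * (b j * Xᴴ * (b j)ᴴ)).trace := by
      rw [trace_mul_comm]
      simp only [Matrix.mul_assoc]
    have a3 : ((b j)ᴴ * Xᴴ * (b j * X)).trace = (Xᴴ * (b j * X * (b j)ᴴ)).trace := by
      rw [Matrix.mul_assoc, trace_mul_comm]
      simp only [Matrix.mul_assoc]
    rw [conjTranspose_sub, conjTranspose_mul, conjTranspose_mul, Matrix.sub_mul, Matrix.mul_sub,
      Matrix.mul_sub, trace_sub, trace_sub, trace_sub, a1, a2, a3]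
    simp only [Matrix.mul_assoc]
    ring
  have h0 : ∑ j, ((b j * X - X * b j)ᴴ * (b j * X - X * b j)).trace = 0 := by
    simp only [e, sum_sub_distrib, sum_add_distrib, ← trace_sum, ← Matrix.mul_sum,
      ← Matrix.sum_mul, h1, h2, hX, hX', Matrix.mul_one, trace_mul_comm X Xᴴ]
    ring
  have h3 := (sum_eq_zero_iff_of_nonneg fun j _ =>
    (posSemidef_conjTranspose_mul_self (b j * X - X * b j)).trace_nonneg).1 h0 j (mem_univ j)
  exact sub_eq_zero.1 (trace_conjTranspose_mul_self_eq_zero_iff.1 h3)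

theorem joint_basis {ι : Type} (T : ι → M6) (hT : ∀ i, (T i).IsHermitian)
    (hC : ∀ i j, T i * T j = T j * T i) :
    ∃ v : OrthonormalBasis (Fin 6) ℂ (EuclideanSpace ℂ (Fin 6)),
      ∀ a i, ∃ c : ℂ, T i *ᵥ (v a).ofLp = c • (v a).ofLp := by
  classical
  let S : ι → Module.End ℂ (EuclideanSpace ℂ (Fin 6)) := fun i => (T i).toEuclideanLin
  have hS : ∀ i, (S i).IsSymmetric := fun i => isSymmetric_toEuclideanLin_iff.2 (hT i)
  have hSC : Pairwise (Function.onFun Commute S) := fun i j _ => by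
    show S i * S j = S j * S i
    exact (toLpLin_mul_same 2 (T i) (T j)).symm.trans
      ((congrArg _ (hC i j)).trans (toLpLin_mul_same 2 (T j) (T i)))
  let V : (ι → ℂ) → Submodule ℂ (EuclideanSpace ℂ (Fin 6)) :=
    fun χ => ⨅ j, Module.End.eigenspace (S j) (χ j)
  have hV : DirectSum.IsInternal V :=
    LinearMap.IsSymmetric.directSum_isInternal_of_pairwise_commute hS hSC
  have hV1 : DirectSum.IsInternal fun χ : {χ // V χ ≠ ⊥} => V χ :=
    DirectSum.isInternal_ne_bot_iff.2 hV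
  have hO := (LinearMap.IsSymmetric.orthogonalFamily_iInf_eigenspaces hS).comp
    (f := fun χ : {χ // V χ ≠ ⊥} => χ.1) Subtype.val_injective
  let _ : Fintype {χ // V χ ≠ ⊥} := hV.submodule_iSupIndep.fintypeNeBotOfFiniteDimensional
  have hn : Module.finrank ℂ (EuclideanSpace ℂ (Fin 6)) = 6 := by simp
  refine ⟨hV1.subordinateOrthonormalBasis hn hO, fun a i => ?_⟩
  have h := hV1.subordinateOrthonormalBasis_subordinate hn a hO
  have h' := Module.End.mem_eigenspace_iff.1 ((Submodule.mem_iInf _).1 h i)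
  exact ⟨_, congrArg WithLp.ofLp h'⟩

theorem kraus_basis {ι : Type} [Fintype ι] (b : ι → M6) (h1 : ∑ j, (b j)ᴴ * b j = 1)
    (h2 : ∑ j, b j * (b j)ᴴ = 1) (h3 : ∀ i, ∑ j, b j * b i * (b j)ᴴ = b i) :
    ∃ v : OrthonormalBasis (Fin 6) ℂ (EuclideanSpace ℂ (Fin 6)),
      ∀ a j, ∃ c : ℂ, b j *ᵥ (v a).ofLp = c • (v a).ofLp := by
  have c1 : ∀ i j, b j * b i = b i * b j := fun i j => fix_comm b h1 h2 _ (h3 i) j
  have c2 : ∀ i j, b j * (b i)ᴴ = (b i)ᴴ * b j := fun i j => by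
    refine fix_comm b h1 h2 _ ?_ j
    have := congrArg conjTranspose (h3 i)
    simpa only [conjTranspose_sum, conjTranspose_mul, conjTranspose_conjTranspose,
      Matrix.mul_assoc] using this
  have c3 : ∀ i j, (b j)ᴴ * (b i)ᴴ = (b i)ᴴ * (b j)ᴴ := fun i j => by
    rw [← conjTranspose_mul, c1, conjTranspose_mul]
  let z : Bool → ℂ := fun s => if s then 1 else Complex.I
  let T : ι × Bool → M6 := fun x => z x.2 • b x.1 + conj (z x.2) • (b x.1)ᴴ
  obtain ⟨v, hv⟩ := joint_basis T (fun x => by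
    simp [T, IsHermitian, conjTranspose_add, conjTranspose_smul, add_comm]) (fun x y => by
    simp only [T, Matrix.add_mul, Matrix.mul_add, Matrix.smul_mul, Matrix.mul_smul, smul_add,
      smul_smul, c1 x.1 y.1, c2 x.1 y.1, ← c2 y.1 x.1, c3 x.1 y.1]
    module)
  refine ⟨v, fun a j => ?_⟩
  obtain ⟨c, hc⟩ := hv a (j, true)
  obtain ⟨d, hd⟩ := hv a (j, false)
  simp only [T, z, if_true, Bool.false_eq_true, if_false, add_mulVec, smul_mulVec, map_one,
    Complex.conj_I, one_smul] at hc hd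
  refine ⟨(c - Complex.I * d) / 2, funext fun x => ?_⟩
  have hc' := congrFun hc x
  have hd' := congrFun hd x
  simp only [Pi.add_apply, Pi.smul_apply, smul_eq_mul] at hc' hd' ⊢
  linear_combination (1 / 2 : ℂ) * hc' - (Complex.I / 2) * hd' +
    (((b j *ᵥ (v a).ofLp) x - ((b j)ᴴ *ᵥ (v a).ofLp) x) / 2) * Complex.I_mul_I

end Vale.Agent.P355
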