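import Vale.Agent.P355.MLeaf

/-! The sum of squares part of the certificate. -/

namespace Vale.Agent.P355

open Finset

noncomputable def lsum {α : Type} (L : List α) (f : α → ℕ) : ℕ :=
  List.rec (motive := fun _ => ℕ) 0 (fun x _ r => Nat.add r (f x)) L

theorem Rep.lsum {α : Type} {J F} (L : List α) {N : α → ℕ} {B : ℕ} {v : α → ℝ}
    (h : ∀ x ∈ L, Rep J F (N x) B (v x)) :
    Rep J F (lsum L N) (L.length * B) (L.map v).sum := by
  induction L with
  | nil => exact (Rep.zero J F).mono (Nat.zero_le _) rfl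
  | cons x L ih =>
    refine ((ih fun y hy => h y (List.mem_cons_of_mem _ hy)).add (h x List.mem_cons_self)).mono
      (by simp [add_mul]) (by simp [add_comm])

theorem lsum_flat {α : Type} (L : List (List α)) (f : α → ℕ) :
    lsum L (fun l => lsum l f) = lsum L.flatten f := by
  have h : ∀ {β : Type} (L : List β) (f : β → ℕ), lsum L f = (L.map f).sum := fun L f => by
    induction L with
    | nil => rfl
    | cons x L ih => rw [List.map_cons, List.sum_cons, ← ih, add_comm]; rfl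
  simp only [h, List.map_flatten, List.sum_flatten, List.map_map]
  rfl

def Lf (Lt b I r : ℕ) : ℤ :=
  Int.subNatNat (Nat.land (Nat.shiftRight Lt
    (Nat.mul 32 (Nat.add (Nat.mul 11 (Nat.add (Nat.mul 12 b) I)) r))) 4294967295) 2147483648
noncomputable def zz (Lt b I J : ℕ) : ℤ := isum 11 fun r => Int.mul (Lf Lt b I r) (Lf Lt b J r)
noncomputable def zj (Lt i j : ℕ) (e : Bool) (l s : ℕ) : ℤ :=
  Int.mul (cndI (Nat.beq i j) 1 2)
    (Int.add (zz Lt (2 * l) (2 * i + s % 2) (2 * j + s / 2))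
      (Int.mul (sgn e) (zz Lt (2 * l + 1) (2 * i + s % 2) (2 * j + s / 2))))
noncomputable def stk (z : ℕ → ℤ) : ℕ := loop 4 fun s => Nat.shiftLeft (pn (z s)) (Nat.mul 152 s)
noncomputable def dA (Lt i j : ℕ) (e : Bool) (l : ℕ) : ℕ := stk (zj Lt i j e l)
noncomputable def dB (Lt i j : ℕ) (e : Bool) (l : ℕ) : ℕ := stk fun s => Int.neg (zj Lt i j e l s)
noncomputable def cf (Lt i j : ℕ) (e : Bool) (l k : ℕ) : ℕ :=
  Nat.add (Nat.mul (Nat.sub k 24) (dA Lt i j e l)) (Nat.mul (Nat.sub 24 k) (dB Lt i j e l))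
noncomputable def zb (Lt i j : ℕ) (e : Bool) (l : ℕ) : ℕ :=
  loop 4 fun s => (zj Lt i j e l s).natAbs
def pa (P i c : ℕ) : ℕ := Nat.land (Nat.shiftRight P (Nat.add (Nat.mul 24 i) (Nat.mul 4 c))) 15
noncomputable def cj (P i j : ℕ) (e : Bool) (c p : ℕ) : ℕ :=
  Nat.add (Nat.mul 16 (pa P i c)) (cnd e (Nat.sub 16 (pa P j p)) (pa P j p))
noncomputable def ej (P i j : ℕ) (e : Bool) (c p : ℕ) : ℕ := pw (cj P i j e c p)
noncomputable def leafT (t : Tab) (E C : ℕ → ℕ → ℕ) (l : Leaf) : ℕ :=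
  Leaf.rec (motive := fun _ => ℕ) (fun p0 p1 p2 p3 p4 p5 k0 k1 k2 k3 k4 k5 k6 => put t 5 0
    (Nat.add (Nat.add (Nat.add (Nat.add (Nat.add (E 0 p0) (E 1 p1)) (E 2 p2)) (E 3 p3)) (E 4 p4))
      (E 5 p5))
    (Nat.add (Nat.add (Nat.add (Nat.add (Nat.add (Nat.add (C 0 k0) (C 1 k1)) (C 2 k2)) (C 3 k3))
      (C 4 k4)) (C 5 k5)) (C 6 k6))) l
noncomputable def job (t : Tab) (Lt P : ℕ) (LL : List (List Leaf)) (i j : ℕ) (e : Bool) : ℕ :=
  lsum LL fun L => lsum L (leafT t (ej P i j e) (cf Lt i j e))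
noncomputable def jobB (Lt i j : ℕ) (e : Bool) : ℕ :=
  Nat.mul 720 (loop 7 fun l => Nat.mul 24 (zb Lt i j e l))
noncomputable def grp (t : Tab) (Lt P : ℕ) (LL : List (List Leaf)) (i0 j0 : ℕ) : ℕ :=
  loop 3 fun i' => loop 3 fun j' => frc (Nat.add i0 i') fun i => frc (Nat.add j0 j') fun j =>
    cnd (Nat.ble i j) (Nat.add (job t Lt P LL i j true) (job t Lt P LL i j false)) 0
noncomputable def grpB (Lt i0 j0 : ℕ) : ℕ :=
  loop 3 fun i' => loop 3 fun j' => frc (Nat.add i0 i') fun i => frc (Nat.add j0 j') fun j =>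
    cnd (Nat.ble i j) (Nat.add (jobB Lt i j true) (jobB Lt i j false)) 0

theorem stk_dig (z : ℕ → ℤ) : Dig 4 (stk z) (loop 4 fun s => (z s).natAbs) z := by
  refine ⟨fun s => (z s).toNat, fun s => (-z s).toNat, ?_, ?_, fun s _ => ?_⟩
  · simp only [stk, loop_eq, shl_eq, pn_eq]
  · rw [loop_eq]
    exact sum_le_sum fun s _ => by beta_reduce; omega
  · beta_reduce
    omega

theorem cf_dig (Lt i j : ℕ) (e : Bool) (l : ℕ) {k : ℕ} (hk : k ≤ 48) :
    Dig 4 (cf Lt i j e l k) (24 * zb Lt i j e l) fun s => ((k : ℤ) - 24) * zj Lt i j e l s := by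
  refine (((stk_dig (zj Lt i j e l)).smul (k - 24)).add
    ((stk_dig fun s => -zj Lt i j e l s).smul (24 - k))).mono ?_ fun s _ => ?_
  · simp only [Int.natAbs_neg]
    rw [← add_mul]
    exact Nat.mul_le_mul_right _ (by omega)
  · have : ((k : ℤ) - 24) = ((k - 24 : ℕ) : ℤ) - ((24 - k : ℕ) : ℤ) := by omega
    rw [this]
    ring

def av (P i : ℕ) : Zv := fun c => (pa P i c : ℤ) - 8
def bv (P j : ℕ) (e : Bool) (f : Fin 6 → ℕ) : Zv :=
  fun c => if e then 8 - (pa P j (f c) : ℤ) else (pa P j (f c) : ℤ) - 8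
noncomputable def lv (u : Fr) (n V : Fin 7 → ℕ) (Lt P i j : ℕ) (e : Bool) (f : Fin 6 → ℕ) : ℝ :=
  ∑ s ∈ range 4, ((∑ l : Fin 7, kq (n l) (V l) f * zj Lt i j e l s : ℤ) : ℝ) *
    valZ u (ms s) (av P i) (bv P j e f)

variable {P : ℕ} (hP : ∀ i < 6, ∀ c < 6, 5 ≤ pa P i c ∧ pa P i c ≤ 11)
include hP

theorem leaf_rep (u : Fr) (t : Tab) {n V : Fin 7 → ℕ} (Lt : ℕ) {i j : ℕ} (hi : i < 6) (hj : j < 6)
    (e : Bool) {l : Leaf} (hl : chkL n V l = true) :
    Rep (5 * sz t) (FT u t 5) (leafT t (ej P i j e) (cf Lt i j e) l)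
      (∑ l ∈ range 7, 24 * zb Lt i j e l) (lv u n V Lt P i j e l.lf) := by
  obtain ⟨⟨π, hπ⟩, hk⟩ := chkL_spec hl
  let c : ℕ → ℕ := fun x => if h : x < 6 then cj P i j e x (l.lf ⟨x, h⟩) else 0
  have hD := ((((((cf_dig Lt i j e 0 (hk 0).1).add (cf_dig Lt i j e 1 (hk 1).1)).add
    (cf_dig Lt i j e 2 (hk 2).1)).add (cf_dig Lt i j e 3 (hk 3).1)).add
    (cf_dig Lt i j e 4 (hk 4).1)).add (cf_dig Lt i j e 5 (hk 5).1)).add
    (cf_dig Lt i j e 6 (hk 6).1)
  have h1 := put_rep u t (S := 5) (s := 0) (m := 0) c (by omega) hD (by omega)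
  have hc : ∀ x : Fin 6, va c x = av P i x ∧ vb c x = bv P j e l.lf x := fun x => by
    have h2 := hP i hi x x.2
    have h3 := hP j hj (l.lf x) (by rw [← hπ]; exact (π x).2)
    have h4 : c x = cj P i j e x (l.lf x) := dif_pos x.2
    rw [va, vb, av, bv, h4, cj, cnd_eq]
    simp only [Nat.add_eq, Nat.mul_eq, Nat.sub_eq]
    split_ifs
    · have := da_mk (x := pa P i x) (y := 16 - pa P j (l.lf x)) (by omega)
      omega
    · exact da_mk (by omega)
  have ea : va c = av P i := funext fun x => (hc x).1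
  have eb : vb c = bv P j e l.lf := funext fun x => (hc x).2
  rw [zero_add] at h1
  have h5 : leafT t (ej P i j e) (cf Lt i j e) l = put t 5 0 (msc c)
      (cf Lt i j e 0 (l.kf 0) + cf Lt i j e 1 (l.kf 1) + cf Lt i j e 2 (l.kf 2) +
        cf Lt i j e 3 (l.kf 3) + cf Lt i j e 4 (l.kf 4) + cf Lt i j e 5 (l.kf 5) +
        cf Lt i j e 6 (l.kf 6)) := by
    cases l
    rfl
  rw [h5]
  refine h1.mono (by simp [sum_range_succ]) ?_
  refine sum_congr rfl fun s _ => ?_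
  rw [val, ea, eb, zero_add, zero_add, Fin.sum_univ_seven, (hk 0).2, (hk 1).2, (hk 2).2, (hk 3).2,
    (hk 4).2, (hk 5).2, (hk 6).2]
  rfl

theorem job_rep (u : Fr) (t : Tab) {n V : Fin 7 → ℕ} (Lt : ℕ) {LL : List (List Leaf)}
    (h1 : ∀ l ∈ LL.flatten, chkL n V l = true)
    (h2 : (LL.flatten.map fun l => lc l.lf).IsChain (· < ·)) (h3 : LL.flatten.length = 720)
    {i j : ℕ} (hi : i < 6) (hj : j < 6) (e : Bool) :
    Rep (5 * sz t) (FT u t 5) (job t Lt P LL i j e) (jobB Lt i j e)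
      (∑ π : Pm, lv u n V Lt P i j e (pf π)) := by
  rw [job, lsum_flat, ← sum_leaves h1 h2 h3]
  refine (Rep.lsum _ fun l hl => leaf_rep hP u t Lt hi hj e (h1 l hl)).mono ?_ rfl
  rw [h3, jobB, loop_eq]
  rfl

omit hP in
noncomputable def HH (u : Fr) (n V : Fin 7 → ℕ) (Lt P i j : ℕ) : ℝ :=
  ∑ l : Fin 7, ∑ e : Bool, ∑ c : Bool, ∑ c' : Bool,
    (zz Lt (2 * l + (!e).toNat) (2 * i + c.toNat) (2 * j + c'.toNat) : ℝ) *
      MM u (kap (n l) (vs (V l)) (vr (V l))) e c c' (av P i) (av P j)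

omit hP in
theorem lv_sum (u : Fr) (n V : Fin 7 → ℕ) (Lt P i j : ℕ) :
    ∑ π : Pm, lv u n V Lt P i j true (pf π) + ∑ π : Pm, lv u n V Lt P i j false (pf π) =
      (if i = j then 1 else 2) * HH u n V Lt P i j := by
  have e1 : ∀ π : Pm, bv P j true (pf π) = -av P j ∘ π := fun π => funext fun c => by
    simp [bv, av, pf]
  have e2 : ∀ π : Pm, bv P j false (pf π) = av P j ∘ π := fun π => funext fun c => by
    simp [bv, av, pf]
  simp only [lv, HH, MM, e1, e2, kq_pf, Int.cast_sum, sum_mul, mul_sum]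
  rw [← sum_add_distrib]
  simp only [sum_comm (s := range 4) (t := (univ : Finset (Fin 7))), ← sum_add_distrib]
  rw [sum_comm]
  refine sum_congr rfl fun l _ => ?_
  simp only [Fintype.sum_bool, ← sum_add_distrib]
  refine sum_congr rfl fun π _ => ?_
  simp only [sum_range_succ, sum_range_zero, zj, cndI_eq, Nat.beq_eq, Int.mul_def, Int.add_def,
    sgn, msk, ms]
  norm_num
  split_ifs <;> ring

omit hP in
theorem HH_symm {u : Fr} (h : Good u) (n V : Fin 7 → ℕ) (Lt P i j : ℕ) :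
    HH u n V Lt P i j = HH u n V Lt P j i := by
  refine sum_congr rfl fun l _ => sum_congr rfl fun e _ => ?_
  rw [sum_comm]
  refine sum_congr rfl fun c _ => sum_congr rfl fun c' _ => ?_
  rw [MM_symm h]
  simp only [zz, isum_eq, Int.mul_def, mul_comm (Lf Lt _ (2 * i + _) _)]

omit hP in
theorem HH_nonneg {u : Fr} (h : Good u) (n V : Fin 7 → ℕ) (Lt P : ℕ) :
    0 ≤ ∑ i ∈ range 6, ∑ j ∈ range 6, HH u n V Lt P i j := by
  unfold HH
  rw [sum_comm_cycle]
  refine sum_nonneg fun l _ => ?_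
  rw [sum_comm_cycle]
  refine sum_nonneg fun e _ => ?_
  have h1 := sum_nonneg (s := range 11) fun r _ => MM_psd h (range 6 ×ˢ (univ : Finset Bool))
    (n l) (vs (V l)) (vr (V l)) e (fun x => x.2) (fun x => av P x.1)
    (fun x => (Lf Lt (2 * l + (!e).toNat) (2 * x.1 + x.2.toNat) r : ℝ))
  refine h1.trans_eq ?_
  rw [sum_comm_cycle, sum_comm_cycle]
  simp only [sum_product, ← sum_mul, zz, isum_eq, Int.mul_def, Int.cast_sum, Int.cast_mul]
  exact sum_congr rfl fun i _ => sum_comm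

theorem grp_rep (u : Fr) (t : Tab) {n V : Fin 7 → ℕ} (Lt : ℕ) {LL : List (List Leaf)}
    (h1 : ∀ l ∈ LL.flatten, chkL n V l = true)
    (h2 : (LL.flatten.map fun l => lc l.lf).IsChain (· < ·)) (h3 : LL.flatten.length = 720)
    {i0 j0 : ℕ} (hi : i0 ≤ 3) (hj : j0 ≤ 3) :
    Rep (5 * sz t) (FT u t 5) (grp t Lt P LL i0 j0) (grpB Lt i0 j0)
      (∑ i ∈ range 3, ∑ j ∈ range 3, if i0 + i ≤ j0 + j then
        (if i0 + i = j0 + j then 1 else 2) * HH u n V Lt P (i0 + i) (j0 + j) else 0) := by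
  rw [grpB, loop_eq]
  refine Rep.loop 3 fun i hi' => ?_
  rw [loop_eq, loop_eq]
  refine Rep.sum _ fun j hj' => ?_
  have hj' := mem_range.1 hj'
  simp only [frc_eq, cnd_eq, Nat.ble_eq, Nat.add_eq]
  split_ifs with hij
  all_goals first
    | exact Rep.zero _ _
    | refine ((job_rep hP u t Lt h1 h2 h3 (by omega) (by omega) true).add
        (job_rep hP u t Lt h1 h2 h3 (by omega) (by omega) false)).mono le_rfl ?_
      rw [lv_sum]
      simp [*]

omit hP in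
theorem grp_nonneg {u : Fr} (h : Good u) (n V : Fin 7 → ℕ) (Lt P : ℕ) (g : ℕ → ℕ → ℝ)
    (hg : ∀ i0 j0, g i0 j0 = ∑ i ∈ range 3, ∑ j ∈ range 3, if i0 + i ≤ j0 + j then
        (if i0 + i = j0 + j then 1 else 2) * HH u n V Lt P (i0 + i) (j0 + j) else 0) :
    0 ≤ g 0 0 + g 0 3 + g 3 3 := by
  refine (HH_nonneg h n V Lt P).trans_eq ?_
  have hs := HH_symm h n V Lt P
  generalize HH u n V Lt P = H at hg hs
  simp only [hg, sum_range_succ, sum_range_zero]
  norm_num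
  rw [hs 1 0, hs 2 0, hs 3 0, hs 4 0, hs 5 0, hs 2 1, hs 3 1, hs 4 1, hs 5 1, hs 3 2, hs 4 2,
    hs 5 2, hs 4 3, hs 5 3, hs 5 4]
  ring

end Vale.Agent.P355
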