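import Vale.Agent.P355.MVal

/-! Positive semidefinite blocks built from positive definite functions on the symmetric group. -/

namespace Vale.Agent.P355

open Finset ComplexConjugate

abbrev Pm := Equiv.Perm (Fin 6)

def dg (ρ p : ℕ) : ℕ := Nat.mod (Nat.shiftRight ρ (Nat.mul 2 p)) 4
def cdi (ρ p w : ℕ) : ℕ := Nat.mul w (dg ρ p)
def cd6 (ρ p0 p1 p2 p3 p4 p5 : ℕ) : ℕ :=
  Nat.add (Nat.add (Nat.add (Nat.add (Nat.add (cdi ρ p0 1) (cdi ρ p1 4)) (cdi ρ p2 16))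
    (cdi ρ p3 64)) (cdi ρ p4 256)) (cdi ρ p5 1024)
def cdp (ρ : ℕ) (σ : Pm) : ℕ := cd6 ρ (σ 0) (σ 1) (σ 2) (σ 3) (σ 4) (σ 5)

theorem dg_lt (ρ p : ℕ) : dg ρ p < 4 := Nat.mod_lt _ (by decide)

theorem cdp_lt (ρ : ℕ) (σ : Pm) : cdp ρ σ < 4096 := by
  have := dg_lt ρ (σ 0); have := dg_lt ρ (σ 1); have := dg_lt ρ (σ 2)
  have := dg_lt ρ (σ 3); have := dg_lt ρ (σ 4); have := dg_lt ρ (σ 5)
  simp only [cdp, cd6, cdi, Nat.add_eq, Nat.mul_eq]
  omega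

theorem cdp_iff (ρ ρ' : ℕ) (σ τ : Pm) :
    cdp ρ σ = cdp ρ' τ ↔ ∀ i, dg ρ (σ i) = dg ρ' (τ i) := by
  have := dg_lt ρ (σ 0); have := dg_lt ρ (σ 1); have := dg_lt ρ (σ 2)
  have := dg_lt ρ (σ 3); have := dg_lt ρ (σ 4); have := dg_lt ρ (σ 5)
  have := dg_lt ρ' (τ 0); have := dg_lt ρ' (τ 1); have := dg_lt ρ' (τ 2)
  have := dg_lt ρ' (τ 3); have := dg_lt ρ' (τ 4); have := dg_lt ρ' (τ 5)
  simp only [cdp, cd6, cdi, Nat.add_eq, Nat.mul_eq]
  constructor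
  · intro h i
    fin_cases i <;> simp only [Fin.reduceFinMk, Fin.isValue] <;> omega
  · intro h
    rw [h 0, h 1, h 2, h 3, h 4, h 5]

def kap (n : ℕ) (s : ℕ → ℤ) (ρ : ℕ → ℕ) (π : Pm) : ℤ :=
  ∑ q ∈ range n, s q * ∑ p ∈ range n, if cdp (ρ p) 1 = cdp (ρ q) π then s p else 0
def FF (n : ℕ) (s : ℕ → ℤ) (ρ : ℕ → ℕ) (σ : Pm) (x : ℕ) : ℤ :=
  ∑ p ∈ range n, if cdp (ρ p) σ = x then s p else 0

theorem FF_sum (n : ℕ) (s : ℕ → ℤ) (ρ : ℕ → ℕ) (σ π : Pm) :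
    ∑ x ∈ range 4096, FF n s ρ σ x * FF n s ρ (π * σ) x = kap n s ρ π := by
  have h1 : ∀ x, FF n s ρ σ x * FF n s ρ (π * σ) x =
      ∑ q ∈ range n, if cdp (ρ q) (π * σ) = x then s q * FF n s ρ σ x else 0 := fun x => by
    rw [FF.eq_1 n s ρ (π * σ), mul_sum]
    exact sum_congr rfl fun q _ => by split_ifs <;> ring
  simp only [h1]
  rw [sum_comm]
  refine sum_congr rfl fun q _ => ?_
  rw [sum_ite_eq, if_pos (mem_range.2 (cdp_lt _ _)), FF]
  refine congrArg _ (sum_congr rfl fun p _ => if_congr ?_ rfl rfl)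
  rw [cdp_iff, cdp_iff]
  exact ⟨fun h i => by simpa using h (σ.symm i), fun h i => h (σ i)⟩

theorem valZ_alt (u : Fr) (m : ℕ) (a b : Zv) :
    valZ u m a b = ∑ σ : Pm, (TT u m (a ∘ σ) (b ∘ σ)).re := by
  unfold valZ
  rw [← Equiv.sum_comp (Equiv.inv Pm) (fun σ => (TT (prm u σ) m a b).re)]
  exact sum_congr rfl fun σ _ => by rw [TT_prm]; rfl

def msk (c c' : Bool) : ℕ := if c then (if c' then 7 else 1) else (if c' then 2 else 0)
noncomputable def psi (u : Fr) (c : Bool) (a : Zv) (w : Fin 6 × Fin 6) : ℂ :=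
  sel u c w.1 a * mon (u w.1 w.2) (-a)
def prt (e : Bool) (z : ℂ) : ℝ := if e then z.re else z.im
def sgn (e : Bool) : ℤ := if e then 1 else -1
noncomputable def MM (u : Fr) (k : Pm → ℤ) (e c c' : Bool) (a b : Zv) : ℝ :=
  ∑ π : Pm, k π * (valZ u (msk c c') a (-b ∘ π) + sgn e * valZ u (msk c c') a (b ∘ π))
noncomputable def GG (u : Fr) (n : ℕ) (s : ℕ → ℤ) (ρ : ℕ → ℕ) (e c : Bool) (a : Zv) (x : ℕ)
    (w : Fin 6 × Fin 6) : ℝ := ∑ σ : Pm, FF n s ρ σ x * prt e (psi u c (a ∘ σ) w)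

variable {u : Fr} (h : Good u)
include h

theorem psi_mul (c c' : Bool) (a b : Zv) :
    ∑ w, psi u c a w * psi u c' b w = TT u (msk c c') a b := by
  have h1 : ∑ w, psi u c a w * psi u c' b w =
      ∑ k, sel u c k a * sel u c' k b * tau u k (-a - b) := by
    rw [Fintype.sum_prod_type]
    refine sum_congr rfl fun k _ => ?_
    rw [tau, mul_sum]
    refine sum_congr rfl fun i _ => ?_
    rw [sub_eq_add_neg, mon_add (h.unit k i), psi, psi]
    ring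
  rw [h1]
  cases c <;> cases c'
  · rfl
  · rfl
  · rfl
  · exact (mul_sum univ (fun k => tau u k (-a - b)) (phi u a * phi u b)).symm

theorem psi_neg (c : Bool) (a : Zv) (w : Fin 6 × Fin 6) :
    psi u c (-a) w = conj (psi u c a w) := by
  rw [psi, psi, sel_neg h, mon_neg (h.unit _ _) (-a), map_mul]

theorem prt_mul (e c c' : Bool) (a b : Zv) :
    2 * ∑ w, prt e (psi u c a w) * prt e (psi u c' b w) =
      (TT u (msk c c') a (-b)).re + sgn e * (TT u (msk c c') a b).re := by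
  rw [← psi_mul h, ← psi_mul h, Complex.re_sum, Complex.re_sum, mul_sum, mul_sum,
    ← sum_add_distrib]
  refine sum_congr rfl fun w _ => ?_
  rw [psi_neg h]
  cases e <;> simp [prt, sgn] <;> ring

theorem MM_gram (n : ℕ) (s : ℕ → ℤ) (ρ : ℕ → ℕ) (e c c' : Bool) (a b : Zv) :
    MM u (kap n s ρ) e c c' a b =
      2 * ∑ x ∈ range 4096, ∑ w, GG u n s ρ e c a x w * GG u n s ρ e c' b x w := by
  have h1 : ∀ x w, GG u n s ρ e c a x w * GG u n s ρ e c' b x w = ∑ σ : Pm, ∑ π : Pm,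
      (FF n s ρ σ x * FF n s ρ (π * σ) x : ℤ) *
        (prt e (psi u c (a ∘ σ) w) * prt e (psi u c' ((b ∘ π) ∘ σ) w)) := fun x w => by
    rw [GG, GG, sum_mul]
    refine sum_congr rfl fun σ _ => ?_
    rw [← Equiv.sum_comp (Equiv.mulRight σ), mul_sum]
    refine sum_congr rfl fun π _ => ?_
    have e1 : b ∘ ⇑((Equiv.mulRight σ) π) = (b ∘ π) ∘ σ := rfl
    rw [e1, Equiv.coe_mulRight]
    push_cast
    ring
  have h2 : ∑ x ∈ range 4096, ∑ w, GG u n s ρ e c a x w * GG u n s ρ e c' b x w =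
      ∑ π : Pm, kap n s ρ π *
        ∑ σ : Pm, ∑ w, prt e (psi u c (a ∘ σ) w) * prt e (psi u c' ((b ∘ π) ∘ σ) w) := by
    simp only [h1]
    rw [sum_comm]
    rw [sum_congr rfl fun w _ => sum_comm_cycle, sum_comm]
    refine sum_congr rfl fun π _ => ?_
    rw [sum_congr rfl fun w _ => sum_comm, sum_comm, mul_sum]
    refine sum_congr rfl fun σ _ => ?_
    rw [mul_sum]
    refine sum_congr rfl fun w _ => ?_
    rw [← sum_mul, ← Int.cast_sum, FF_sum]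
  rw [h2, MM, mul_sum]
  refine sum_congr rfl fun π _ => ?_
  rw [mul_left_comm, mul_sum, valZ_alt, valZ_alt, mul_sum, ← sum_add_distrib]
  refine congrArg _ (sum_congr rfl fun σ _ => ?_)
  rw [prt_mul h]
  rfl

theorem MM_symm (n : ℕ) (s : ℕ → ℤ) (ρ : ℕ → ℕ) (e c c' : Bool) (a b : Zv) :
    MM u (kap n s ρ) e c c' a b = MM u (kap n s ρ) e c' c b a := by
  simp only [MM_gram h, mul_comm (GG u n s ρ e c a _ _)]

theorem MM_psd {ι : Type*} (t : Finset ι) (n : ℕ) (s : ℕ → ℤ) (ρ : ℕ → ℕ) (e : Bool)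
    (c : ι → Bool) (a : ι → Zv) (l : ι → ℝ) :
    0 ≤ ∑ i ∈ t, ∑ j ∈ t, l i * l j * MM u (kap n s ρ) e (c i) (c j) (a i) (a j) := by
  have h1 : ∑ i ∈ t, ∑ j ∈ t, l i * l j * MM u (kap n s ρ) e (c i) (c j) (a i) (a j) =
      ∑ x ∈ range 4096, ∑ w, 2 * (∑ i ∈ t, l i * GG u n s ρ e (c i) (a i) x w) ^ 2 := by
    simp only [MM_gram h, sq, sum_mul_sum]
    simp only [mul_sum]
    rw [sum_comm_cycle]
    refine sum_congr rfl fun x _ => ?_
    rw [sum_comm_cycle]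
    exact sum_congr rfl fun w _ => sum_congr rfl fun i _ => sum_congr rfl fun j _ => by ring
  rw [h1]
  exact sum_nonneg fun x _ => sum_nonneg fun w _ => mul_nonneg two_pos.le (sq_nonneg _)

end Vale.Agent.P355
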