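import Vale.Agent.P355.MTab
import Vale.Agent.P355.MPsd

/-! Enumeration of the permutations of six points with the values of seven positive definite
functions. -/

namespace Vale.Agent.P355

open Finset

structure Leaf where
  (p0 p1 p2 p3 p4 p5 k0 k1 k2 k3 k4 k5 k6 : ℕ)

def Leaf.lf (l : Leaf) : Fin 6 → ℕ := ![l.p0, l.p1, l.p2, l.p3, l.p4, l.p5]
def Leaf.kf (l : Leaf) : Fin 7 → ℕ := ![l.k0, l.k1, l.k2, l.k3, l.k4, l.k5, l.k6]
def pf (π : Pm) : Fin 6 → ℕ := fun i => π i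
def lc (f : Fin 6 → ℕ) : ℕ :=
  f 5 + 8 * (f 4 + 8 * (f 3 + 8 * (f 2 + 8 * (f 1 + 8 * f 0))))

noncomputable def isum (n : ℕ) (f : ℕ → ℤ) : ℤ :=
  Nat.rec (motive := fun _ => ℤ) 0 (fun k r => Int.add r (f k)) n
noncomputable def frcI (n : ℕ) (f : ℕ → ℤ) : ℤ :=
  Nat.rec (motive := fun _ => ℤ) (f 0) (fun k _ => f (Nat.succ k)) n
noncomputable def cndI (b : Bool) (x y : ℤ) : ℤ := Bool.rec (motive := fun _ => ℤ) y x b

theorem isum_eq (n : ℕ) (f : ℕ → ℤ) : isum n f = ∑ k ∈ range n, f k := by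
  induction n with
  | zero => rfl
  | succ n ih => rw [sum_range_succ, ← ih]; rfl

theorem frcI_eq (n : ℕ) (f : ℕ → ℤ) : frcI n f = f n := by cases n <;> rfl

theorem cndI_eq (b : Bool) (x y : ℤ) : cndI b x y = if b then x else y := by cases b <;> rfl

def vr (V q : ℕ) : ℕ := Nat.land (Nat.shiftRight V (Nat.mul 13 q)) 4095
noncomputable def vs (V q : ℕ) : ℤ := cndI (Nat.testBit V (13 * q + 12)) (-1) 1
noncomputable def fv (n V x : ℕ) : ℤ :=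
  isum n fun p => cndI (Nat.beq (cd6 (vr V p) 0 1 2 3 4 5) x) (vs V p) 0
noncomputable def kapK (n V p0 p1 p2 p3 p4 p5 : ℕ) : ℤ :=
  isum n fun q => Int.mul (vs V q) (frcI (cd6 (vr V q) p0 p1 p2 p3 p4 p5) (fv n V))
noncomputable def chkK (n V k p0 p1 p2 p3 p4 p5 : ℕ) : Bool :=
  Nat.ble k 48 && decide (Int.subNatNat k 24 = kapK n V p0 p1 p2 p3 p4 p5)
def chkP (p0 p1 p2 p3 p4 p5 : ℕ) : Bool :=
  decide (p0 < 6 ∧ p1 < 6 ∧ p2 < 6 ∧ p3 < 6 ∧ p4 < 6 ∧ p5 < 6) &&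
    decide ([p0, p1, p2, p3, p4, p5].Nodup)
noncomputable def chkL (n V : Fin 7 → ℕ) (l : Leaf) : Bool :=
  Leaf.rec (motive := fun _ => Bool) (fun p0 p1 p2 p3 p4 p5 k0 k1 k2 k3 k4 k5 k6 =>
    chkP p0 p1 p2 p3 p4 p5 && chkK (n 0) (V 0) k0 p0 p1 p2 p3 p4 p5 &&
    chkK (n 1) (V 1) k1 p0 p1 p2 p3 p4 p5 && chkK (n 2) (V 2) k2 p0 p1 p2 p3 p4 p5 &&
    chkK (n 3) (V 3) k3 p0 p1 p2 p3 p4 p5 && chkK (n 4) (V 4) k4 p0 p1 p2 p3 p4 p5 &&
    chkK (n 5) (V 5) k5 p0 p1 p2 p3 p4 p5 && chkK (n 6) (V 6) k6 p0 p1 p2 p3 p4 p5) l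

noncomputable def kq (n V : ℕ) (f : Fin 6 → ℕ) : ℤ :=
  kapK n V (f 0) (f 1) (f 2) (f 3) (f 4) (f 5)

theorem kq_pf (n V : ℕ) (π : Pm) : kq n V (pf π) = kap n (vs V) (vr V) π := by
  simp only [kq, kapK, fv, isum_eq, frcI_eq, cndI_eq, Nat.beq_eq, kap]
  rfl

theorem chkL_spec {n V : Fin 7 → ℕ} {l : Leaf} (h : chkL n V l = true) :
    (∃ π : Pm, pf π = l.lf) ∧
      ∀ j, l.kf j ≤ 48 ∧ (l.kf j : ℤ) - 24 = kq (n j) (V j) l.lf := by
  obtain ⟨p0, p1, p2, p3, p4, p5, k0, k1, k2, k3, k4, k5, k6⟩ := l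
  simp only [chkL, chkP, chkK, Bool.and_eq_true, decide_eq_true_eq, Nat.ble_eq,
    Int.subNatNat_eq_coe] at h
  obtain ⟨⟨⟨⟨⟨⟨⟨⟨hp, hn⟩, h0⟩, h1⟩, h2⟩, h3⟩, h4⟩, h5⟩, h6⟩ := h
  refine ⟨?_, fun j => ?_⟩
  · have hlt : ∀ i, (![p0, p1, p2, p3, p4, p5] : Fin 6 → ℕ) i < 6 := fun i => by
      fin_cases i
      exacts [hp.1, hp.2.1, hp.2.2.1, hp.2.2.2.1, hp.2.2.2.2.1, hp.2.2.2.2.2]
    have hinj : Function.Injective (![p0, p1, p2, p3, p4, p5] : Fin 6 → ℕ) :=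
      List.nodup_ofFn.1 (by simpa using hn)
    let g : Fin 6 → Fin 6 := fun i => ⟨_, hlt i⟩
    have hg : Function.Injective g := fun i j hij => hinj (congrArg Fin.val hij)
    exact ⟨Equiv.ofBijective g (Finite.injective_iff_bijective.1 hg), rfl⟩
  · fin_cases j
    exacts [h0, h1, h2, h3, h4, h5, h6]

theorem sum_leaves {n V : Fin 7 → ℕ} {L : List Leaf} (h1 : ∀ l ∈ L, chkL n V l = true)
    (h2 : (L.map fun l => lc l.lf).IsChain (· < ·)) (h3 : L.length = 720)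
    (G : (Fin 6 → ℕ) → ℝ) : (L.map fun l => G l.lf).sum = ∑ π : Pm, G (pf π) := by
  have hnd : (L.map Leaf.lf).Nodup := by
    refine List.Nodup.of_map lc ?_
    rw [List.map_map]
    exact (List.isChain_iff_pairwise.1 h2).nodup
  have hinj : Function.Injective pf := fun σ τ h =>
    Equiv.ext fun i => Fin.ext (congrFun h i)
  have he : (L.map Leaf.lf).toFinset = univ.image pf := by
    refine eq_of_subset_of_card_le (fun f hf => ?_) ?_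
    · obtain ⟨l, hl, rfl⟩ := List.mem_map.1 (List.mem_toFinset.1 hf)
      obtain ⟨π, hπ⟩ := (chkL_spec (h1 l hl)).1
      exact mem_image.2 ⟨π, mem_univ _, hπ⟩
    · rw [List.toFinset_card_of_nodup hnd, List.length_map, h3, card_image_of_injective _ hinj]
      simp [Fintype.card_perm, Nat.factorial]
  rw [← sum_image (f := G) fun _ _ _ _ h => hinj h, ← he, List.sum_toFinset G hnd, List.map_map]
  rfl

end Vale.Agent.P355
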