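import Vale.Agent.P355.MVal

/-! Packed signed linear forms and hashed accumulation. -/

namespace Vale.Agent.P355

open Finset

noncomputable def loop (n : ℕ) (f : ℕ → ℕ) : ℕ :=
  Nat.rec (motive := fun _ => ℕ) 0 (fun k r => Nat.add r (f k)) n
noncomputable def frc (n : ℕ) (f : ℕ → ℕ) : ℕ :=
  Nat.rec (motive := fun _ => ℕ) (f 0) (fun k _ => f (Nat.succ k)) n
noncomputable def cnd (b : Bool) (x y : ℕ) : ℕ := Bool.rec (motive := fun _ => ℕ) y x b

theorem loop_eq (n : ℕ) (f : ℕ → ℕ) : loop n f = ∑ k ∈ range n, f k := by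
  induction n with
  | zero => rfl
  | succ n ih => rw [sum_range_succ, ← ih]; rfl

theorem frc_eq (n : ℕ) (f : ℕ → ℕ) : frc n f = f n := by cases n <;> rfl

theorem cnd_eq (b : Bool) (x y : ℕ) : cnd b x y = if b then x else y := by cases b <;> rfl

theorem dig_sum (X J : ℕ) (d : ℕ → ℕ) (hd : ∀ i < J, d i < X) (j : ℕ) (hj : j < J) :
    (∑ i ∈ range J, d i * X ^ i) / X ^ j % X = d j := by
  induction J generalizing d j with
  | zero => omega
  | succ J ih =>
    have h0 := hd 0 (by omega)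
    have e : ∑ i ∈ range (J + 1), d i * X ^ i = d 0 + X * ∑ i ∈ range J, d (i + 1) * X ^ i := by
      rw [sum_range_succ', mul_sum, pow_zero, mul_one, add_comm]
      exact congrArg _ (sum_congr rfl fun i _ => by ring)
    rw [e]
    cases j with
    | zero => rw [pow_zero, Nat.div_one, Nat.add_mul_mod_self_left, Nat.mod_eq_of_lt h0]
    | succ j =>
      rw [pow_succ', ← Nat.div_div_eq_div_mul, Nat.add_mul_div_left _ _ (by omega),
        Nat.div_eq_of_lt h0, zero_add]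
      exact ih _ (fun i hi => hd _ (by omega)) j (by omega)

def YY : ℕ := 2 ^ 76
def XX : ℕ := 2 ^ 152

def Dig (J N B : ℕ) (r : ℕ → ℤ) : Prop :=
  ∃ p q : ℕ → ℕ, N = ∑ i ∈ range J, (p i + q i * YY) * XX ^ i ∧
    ∑ i ∈ range J, (p i + q i) ≤ B ∧ ∀ i < J, r i = (p i : ℤ) - q i

def Rep (J : ℕ) (F : ℕ → ℝ) (N B : ℕ) (v : ℝ) : Prop :=
  XX ^ J ≤ N ∨ ∃ r, Dig J N B r ∧ v = ∑ i ∈ range J, r i * F i

theorem Dig.zero (J : ℕ) : Dig J 0 0 fun _ => 0 :=
  ⟨fun _ => 0, fun _ => 0, by simp, by simp, by simp⟩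

theorem Dig.add {J N B N' B' r r'} (h : Dig J N B r) (h' : Dig J N' B' r') :
    Dig J (N + N') (B + B') fun i => r i + r' i := by
  obtain ⟨p, q, h1, h2, h3⟩ := h
  obtain ⟨p', q', h1', h2', h3'⟩ := h'
  refine ⟨fun i => p i + p' i, fun i => q i + q' i, ?_, ?_, fun i hi => ?_⟩
  · rw [h1, h1', ← sum_add_distrib]
    exact sum_congr rfl fun i _ => by ring
  · refine le_trans (le_of_eq ?_) (add_le_add h2 h2')
    rw [← sum_add_distrib]
    exact sum_congr rfl fun i _ => by ring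
  · beta_reduce
    rw [h3 i hi, h3' i hi]
    push_cast
    ring

theorem Dig.smul {J N B r} (c : ℕ) (h : Dig J N B r) :
    Dig J (c * N) (c * B) fun i => c * r i := by
  obtain ⟨p, q, h1, h2, h3⟩ := h
  refine ⟨fun i => c * p i, fun i => c * q i, ?_, ?_, fun i hi => ?_⟩
  · rw [h1, mul_sum]
    exact sum_congr rfl fun i _ => by ring
  · refine le_trans (le_of_eq ?_) (Nat.mul_le_mul_left c h2)
    rw [mul_sum]
    exact sum_congr rfl fun i _ => by ring
  · beta_reduce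
    rw [h3 i hi]
    push_cast
    ring

theorem Dig.mono {J N B B' r r'} (h : Dig J N B r) (hB : B ≤ B') (hr : ∀ i < J, r' i = r i) :
    Dig J N B' r' := by
  obtain ⟨p, q, h1, h2, h3⟩ := h
  exact ⟨p, q, h1, h2.trans hB, fun i hi => (hr i hi).trans (h3 i hi)⟩

theorem Dig.single {J i : ℕ} (hi : i < J) (p q : ℕ) :
    Dig J ((p + q * YY) * XX ^ i) (p + q) fun j => if j = i then (p : ℤ) - q else 0 := by
  refine ⟨fun j => if j = i then p else 0, fun j => if j = i then q else 0, ?_, ?_, fun j _ => ?_⟩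
  · rw [sum_eq_single_of_mem i (mem_range.2 hi)]
    · simp
    · intro j _ hj
      simp [hj]
  · rw [sum_eq_single_of_mem i (mem_range.2 hi)]
    · simp
    · intro j _ hj
      simp [hj]
  · beta_reduce
    split_ifs <;> simp

theorem Rep.zero (J : ℕ) (F : ℕ → ℝ) : Rep J F 0 0 0 := Or.inr ⟨_, Dig.zero J, by simp⟩

theorem Rep.add {J F N B v N' B' v'} (h : Rep J F N B v) (h' : Rep J F N' B' v') :
    Rep J F (N + N') (B + B') (v + v') := by
  rcases h with h | ⟨r, h, rfl⟩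
  · exact Or.inl (h.trans (Nat.le_add_right _ _))
  rcases h' with h' | ⟨r', h', rfl⟩
  · exact Or.inl (h'.trans (Nat.le_add_left _ _))
  refine Or.inr ⟨_, h.add h', ?_⟩
  rw [← sum_add_distrib]
  exact sum_congr rfl fun i _ => by push_cast; ring

theorem Rep.mono {J F N B B' v v'} (h : Rep J F N B v) (hB : B ≤ B') (hv : v' = v) :
    Rep J F N B' v' := by
  rcases h with h | ⟨r, h, rfl⟩
  · exact Or.inl h
  · exact Or.inr ⟨r, h.mono hB fun _ _ => rfl, hv⟩

theorem Rep.sum {ι : Type*} {J F} (s : Finset ι) {N B : ι → ℕ} {v : ι → ℝ}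
    (h : ∀ i ∈ s, Rep J F (N i) (B i) (v i)) :
    Rep J F (∑ i ∈ s, N i) (∑ i ∈ s, B i) (∑ i ∈ s, v i) := by
  classical
  induction s using Finset.induction_on with
  | empty => simpa using Rep.zero J F
  | insert a s ha ih =>
    rw [sum_insert ha, sum_insert ha, sum_insert ha]
    exact (h a (mem_insert_self _ _)).add (ih fun i hi => h i (mem_insert_of_mem hi))

theorem Rep.loop {J F} (n : ℕ) {N B : ℕ → ℕ} {v : ℕ → ℝ}
    (h : ∀ i < n, Rep J F (N i) (B i) (v i)) :
    Rep J F (loop n N) (∑ i ∈ range n, B i) (∑ i ∈ range n, v i) := by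
  rw [loop_eq]
  exact Rep.sum _ fun i hi => h i (mem_range.1 hi)

theorem Rep.shift {J S D B o r} (F : ℕ → ℝ) (h : Dig S D B r) (ho : o + S ≤ J) :
    Rep J F (D * XX ^ o) B (∑ s ∈ range S, r s * F (o + s)) := by
  obtain ⟨p, q, h1, h2, h3⟩ := h
  have h4 : Rep J F (∑ s ∈ range S, (p s + q s * YY) * XX ^ (o + s)) (∑ s ∈ range S, (p s + q s))
      (∑ s ∈ range S, r s * F (o + s)) := Rep.sum _ fun s hs => by
    have hs' := mem_range.1 hs
    refine Or.inr ⟨_, Dig.single (i := o + s) (by omega) _ _, ?_⟩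
    rw [sum_eq_single_of_mem (o + s) (mem_range.2 (by omega)), if_pos rfl, h3 s hs']
    intro j _ hj
    simp [hj]
  have e : D * XX ^ o = ∑ s ∈ range S, (p s + q s * YY) * XX ^ (o + s) := by
    rw [h1, sum_mul]
    exact sum_congr rfl fun i _ => by ring
  rw [e]
  exact h4.mono h2 rfl

def dig (N i : ℕ) : ℕ := Nat.land (Nat.shiftRight N (Nat.mul 152 i)) 5708990770823839524233143877797980545530986495
def lo (D : ℕ) : ℕ := Nat.land D 75557863725914323419135
def hi (D : ℕ) : ℕ := Nat.shiftRight D 76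
def pz (J : ℕ) : ℕ := Nat.shiftLeft 1 (Nat.mul 152 J)
def pn (z : ℤ) : ℕ := Nat.add (Int.toNat z) (Nat.shiftLeft (Int.toNat (Int.neg z)) 76)

theorem shl_eq (D i : ℕ) : Nat.shiftLeft D (Nat.mul 152 i) = D * XX ^ i := by
  rw [XX, ← pow_mul]
  exact Nat.shiftLeft_eq D _

theorem pz_eq (J : ℕ) : pz J = XX ^ J := by rw [pz, shl_eq, one_mul]

theorem dig_eq (N i : ℕ) : dig N i = N / XX ^ i % XX := by
  rw [XX, ← pow_mul, ← Nat.shiftRight_eq_div_pow, ← Nat.and_two_pow_sub_one_eq_mod]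
  rfl

theorem lo_eq (D : ℕ) : lo D = D % YY := by
  rw [YY, ← Nat.and_two_pow_sub_one_eq_mod]
  rfl

theorem hi_eq (D : ℕ) : hi D = D / YY := Nat.shiftRight_eq_div_pow D 76

theorem pn_eq (z : ℤ) : pn z = z.toNat + (-z).toNat * YY := by
  rw [YY, ← Nat.shiftLeft_eq]
  rfl

theorem Dig.pn (z : ℤ) : Dig 1 (pn z) z.natAbs fun _ => z :=
  ⟨fun _ => z.toNat, fun _ => (-z).toNat, by simp [pn_eq], by rw [sum_range_one]; beta_reduce; omega,
    fun _ _ => by beta_reduce; omega⟩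

theorem Rep.out {J F N B v} (h : Rep J F N B v) (hN : N < XX ^ J) (hB : B < YY) :
    ∃ p q : ℕ → ℕ, (∀ i < J, dig N i = p i + q i * YY ∧ p i < YY) ∧
      ∑ i ∈ range J, (p i + q i) ≤ B ∧ v = ∑ i ∈ range J, ((p i : ℝ) - q i) * F i := by
  rcases h with h | ⟨r, ⟨p, q, h1, h2, h3⟩, rfl⟩
  · omega
  have h4 : ∀ i < J, p i + q i < YY := fun i hi =>
    ((single_le_sum (f := fun i => p i + q i) (fun _ _ => Nat.zero_le _)
      (mem_range.2 hi)).trans h2).trans_lt hB
  refine ⟨p, q, fun i hi => ⟨?_, by have := h4 i hi; omega⟩, h2,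
    sum_congr rfl fun i hi => by rw [h3 i (mem_range.1 hi)]; push_cast; rfl⟩
  rw [dig_eq, h1]
  refine dig_sum XX J (fun i => p i + q i * YY) (fun i hi => ?_) i hi
  have := h4 i hi
  have e : XX = YY * YY := by rw [XX, YY, ← pow_add]
  rw [e]
  nlinarith

def pw (c : ℕ) : ℕ := Nat.shiftLeft 8 (Nat.mul 4 c)
def msc (c : ℕ → ℕ) : ℕ :=
  Nat.add (Nat.add (Nat.add (Nat.add (Nat.add (pw (c 0)) (pw (c 1))) (pw (c 2))) (pw (c 3)))
    (pw (c 4))) (pw (c 5))

theorem msc_eq (c : ℕ → ℕ) : msc c = 8 * ∑ i : Fin 6, 16 ^ c i := by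
  have e : ∀ x, pw x = 8 * 16 ^ x := fun x => by
    rw [show 16 = 2 ^ 4 from rfl, ← pow_mul]
    exact Nat.shiftLeft_eq 8 _
  simp only [msc, e, Fin.sum_univ_six, Nat.add_eq, mul_add]
  rfl

theorem perm_of_pow {f g : Fin 6 → ℕ} (h : ∑ i, 16 ^ f i = ∑ i, 16 ^ g i) :
    ∃ π : Equiv.Perm (Fin 6), ∀ i, g (π i) = f i := by
  let J := ∑ i, f i + ∑ i, g i + 1
  have hf : ∀ i, f i < J := fun i => by
    have := single_le_sum (f := f) (fun _ _ => Nat.zero_le _) (mem_univ i)
    omega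
  have hg : ∀ i, g i < J := fun i => by
    have := single_le_sum (f := g) (fun _ _ => Nat.zero_le _) (mem_univ i)
    omega
  have h1 : ∀ f : Fin 6 → ℕ, (∀ i, f i < J) →
      ∑ i, 16 ^ f i = ∑ y ∈ range J, (univ.filter fun i => f i = y).card * 16 ^ y := fun f hf => by
    rw [← sum_fiberwise_of_maps_to (g := f) (t := range J) fun i _ => mem_range.2 (hf i)]
    refine sum_congr rfl fun y _ => ?_
    rw [sum_congr rfl fun i hi => by rw [(mem_filter.1 hi).2], sum_const, smul_eq_mul]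
  have h2 : ∀ (f : Fin 6 → ℕ) y, (univ.filter fun i => f i = y).card < 16 := fun f y =>
    (card_le_univ _).trans_lt (by simp)
  have h3 : ∀ y, (univ.filter fun i => f i = y).card = (univ.filter fun i => g i = y).card :=
    fun y => by
      by_cases hy : y < J
      · rw [← dig_sum 16 J _ (fun y _ => h2 f y) y hy, ← dig_sum 16 J _ (fun y _ => h2 g y) y hy,
          ← h1 f hf, ← h1 g hg, h]
      · rw [filter_false_of_mem fun i _ => by have := hf i; omega,
          filter_false_of_mem fun i _ => by have := hg i; omega]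
  let e : ∀ y, {i // f i = y} ≃ {i // g i = y} := fun y =>
    Fintype.equivOfCardEq (by rw [Fintype.card_subtype, Fintype.card_subtype, h3])
  exact ⟨Equiv.ofFiberEquiv e, Equiv.ofFiberEquiv_map e⟩

end Vale.Agent.P355
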