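import Vale.Agent.P355.MCert

/-! There are no seven mutually unbiased bases in dimension six. -/

namespace Vale.Agent.P355

open Finset ComplexConjugate

theorem no_seven (B : Fin 7 → OrthonormalBasis (Fin 6) ℂ (EuclideanSpace ℂ (Fin 6)))
    (hB : ∀ k l, k ≠ l → ∀ i j, ‖inner ℂ (B k i) (B l j)‖ ^ 2 = 1 / 6) : False := by
  let s : ℂ := (Real.sqrt 6 : ℝ)
  have hs : s * conj s = 6 := by
    simp only [s, Complex.conj_ofReal, ← Complex.ofReal_mul]
    rw [Real.mul_self_sqrt (by norm_num)]
    norm_num
  let u : Fr := fun k i c => s * inner ℂ (B 0 c) (B k.succ i)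
  have h1 : ∀ k l i j, ∑ c, u k i c * conj (u l j c) = 6 * inner ℂ (B l.succ j) (B k.succ i) :=
    fun k l i j => by
      rw [← (B 0).sum_inner_mul_inner, mul_sum]
      refine sum_congr rfl fun c _ => ?_
      simp only [u, map_mul, inner_conj_symm]
      linear_combination (inner ℂ (B l.succ j) (B 0 c) * inner ℂ (B 0 c) (B k.succ i)) * hs
  have h2 : ∀ k l, k ≠ l → ∀ i j, inner ℂ (B k i) (B l j) * conj (inner ℂ (B k i) (B l j)) =
      (1 / 6 : ℂ) := fun k l hkl i j => by
    rw [Complex.mul_conj, Complex.normSq_eq_norm_sq, hB k l hkl]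
    norm_num
  refine not_good u ⟨fun k i c => ?_, fun k i j => ?_, fun k l hkl i j => ?_⟩
  · have := h2 0 k.succ (Fin.succ_ne_zero k).symm c i
    simp only [u, map_mul]
    linear_combination (inner ℂ (B 0 c) (B k.succ i) * conj (inner ℂ (B 0 c) (B k.succ i))) * hs +
      6 * this
  · rw [h1, orthonormal_iff_ite.1 (B k.succ).orthonormal]
    by_cases hij : i = j
    · simp [hij]
    · simp [hij, Ne.symm hij]
  · have h3 : ∑ c, conj (u k i c) * u l j c = 6 * inner ℂ (B k.succ i) (B l.succ j) := by
      rw [← h1]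
      exact sum_congr rfl fun c _ => mul_comm _ _
    have := h2 k.succ l.succ (fun h => hkl (Fin.succ_injective _ h)) i j
    rw [inner_conj_symm] at this
    rw [h1, h3]
    linear_combination 36 * this

end Vale.Agent.P355
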