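import Vale.Agent.P355.MFix

/-! Six mutually unbiased bases in dimension six extend to seven. -/

namespace Vale.Agent.P355

open Finset Matrix ComplexConjugate

abbrev F2 := Fin 6 × Fin 6

structure Six (u : F2 → Fin 6 → ℂ) : Prop where
  ip : ∀ p q : F2, (∑ a, conj (u p a) * u q a) * conj (∑ a, conj (u p a) * u q a) =
    if p.1 = q.1 then (if p.2 = q.2 then 1 else 0) else 1 / 6
  nrm : ∀ p, ∑ a, conj (u p a) * u p a = 1
  cpl : ∀ k a b, ∑ i, u (k, i) a * conj (u (k, i) b) = if a = b then 1 else 0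

noncomputable def wv (u : F2 → Fin 6 → ℂ) (p x : F2) : ℂ := u p x.1 * conj (u p x.2)
def iv (x : F2) : ℂ := if x.1 = x.2 then 1 else 0
noncomputable def kp (u : F2 → Fin 6 → ℂ) (x y : F2) : ℂ :=
  (if x = y then 1 else 0) + iv x * iv y - ∑ p, wv u p x * conj (wv u p y)

theorem iv_conj (x : F2) : conj (iv x) = iv x := by
  unfold iv
  split_ifs <;> simp

theorem kp_conj (u : F2 → Fin 6 → ℂ) (x y : F2) : conj (kp u x y) = kp u y x := by
  simp only [kp, map_sub, map_add, map_mul, map_sum, iv_conj, Complex.conj_conj, eq_comm (a := x),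
    mul_comm (iv x), mul_comm (wv u _ y)]
  split_ifs <;> simp

theorem kp_shuffle (u : F2 → Fin 6 → ℂ) (a b c d : Fin 6) :
    kp u (a, c) (b, d) = kp u (a, b) (c, d) := by
  have e : ∀ x y z w : Fin 6, (if (x, y) = (z, w) then (1 : ℂ) else 0) = iv (x, z) * iv (y, w) :=
    fun x y z w => by
      simp only [iv, Prod.mk.injEq]
      by_cases h1 : x = z <;> by_cases h2 : y = w <;> simp [h1, h2]
  simp only [kp, e, wv, map_mul, Complex.conj_conj]
  rw [add_comm]
  exact congrArg _ (sum_congr rfl fun p _ => by ring)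

theorem kp_apply (u : F2 → Fin 6 → ℂ) (x : F2) (f : F2 → ℂ) : ∑ y, kp u x y * f y =
    f x + iv x * ∑ y, iv y * f y - ∑ p, wv u p x * ∑ y, conj (wv u p y) * f y := by
  simp only [kp, sub_mul, add_mul, sum_sub_distrib, sum_add_distrib, ite_mul, one_mul, zero_mul,
    sum_ite_eq, mem_univ, if_true, mul_sum, sum_mul, mul_assoc]
  rw [sum_comm]

theorem sum_iv (f : F2 → ℂ) : ∑ y, iv y * f y = ∑ a, f (a, a) := by
  simp [iv, Fintype.sum_prod_type]

variable {u : F2 → Fin 6 → ℂ} (h : Six u)
include h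

theorem sum_wv (x : F2) : ∑ p, wv u p x = 6 * iv x := by
  simp only [wv, Fintype.sum_prod_type, h.cpl, iv]
  simp

theorem wv_wv (p q : F2) : ∑ y, conj (wv u p y) * wv u q y =
    if p.1 = q.1 then (if p.2 = q.2 then 1 else 0) else 1 / 6 := by
  rw [← h.ip, map_sum, sum_mul_sum, Fintype.sum_prod_type]
  refine sum_congr rfl fun a _ => sum_congr rfl fun b _ => ?_
  simp only [wv, map_mul, Complex.conj_conj]
  ring

omit h in
theorem sum_ip (q : F2) (g : F2 → ℂ) (c : ℂ) (hg : ∀ k, ∑ i, g (k, i) = c) :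
    ∑ p, g p * (if p.1 = q.1 then (if p.2 = q.2 then 1 else 0) else 1 / 6 : ℂ) =
      g q + 5 / 6 * c := by
  have e : ∀ k, ∑ i, g (k, i) * (if k = q.1 then (if i = q.2 then 1 else 0) else 1 / 6 : ℂ) =
      (if k = q.1 then g q - c / 6 else 0) + c / 6 := fun k => by
    split_ifs with hk
    · subst hk
      simp
    · rw [← sum_mul, hg]
      ring
  rw [Fintype.sum_prod_type]
  simp only [e, sum_add_distrib, sum_ite_eq', mem_univ, if_true]
  simp
  ring

theorem kp_iv (x : F2) : ∑ y, kp u x y * iv y = iv x := by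
  have e : ∀ p, ∑ y, conj (wv u p y) * iv y = 1 := fun p => by
    simp only [mul_comm _ (iv _), sum_iv, wv, map_mul, Complex.conj_conj, h.nrm]
  rw [kp_apply, sum_iv]
  simp only [e, mul_one, sum_wv h]
  simp [iv]

theorem kp_wv (x q : F2) : ∑ y, kp u x y * wv u q y = iv x / 6 := by
  have e : ∑ a, wv u q (a, a) = 1 := by
    simp only [wv, mul_comm (u q _), h.nrm]
  rw [kp_apply, sum_iv, e]
  simp only [wv_wv h]
  rw [sum_ip q (fun p => wv u p x) (iv x) fun k => h.cpl k x.1 x.2]
  ring

theorem kp_sq (x z : F2) : ∑ y, kp u x y * kp u y z = kp u x z := by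
  have e : ∀ y, kp u x y * kp u y z = (if y = z then kp u x y else 0) +
      kp u x y * iv y * iv z - ∑ p, kp u x y * wv u p y * conj (wv u p z) := fun y => by
    rw [kp.eq_1 u y z, mul_sub, mul_add, mul_sum]
    simp only [mul_assoc, mul_ite, mul_one, mul_zero]
  simp only [e, sum_sub_distrib, sum_add_distrib, sum_ite_eq', mem_univ, if_true]
  rw [sum_comm]
  simp only [← sum_mul, kp_iv h, kp_wv h]
  rw [← mul_sum, ← map_sum, sum_wv h, map_mul, iv_conj, map_ofNat]
  ring

omit h in
noncomputable def bk (u : F2 → Fin 6 → ℂ) (j : F2) : M6 := Matrix.of fun a c => kp u (a, c) j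

theorem kp_gram (x z : F2) : ∑ j, kp u x j * conj (kp u z j) = kp u x z := by
  simp only [kp_conj, kp_sq h]

theorem bk_apply (X : M6) (a b : Fin 6) :
    (∑ j, bk u j * X * (bk u j)ᴴ) a b = ∑ y : F2, kp u (a, b) y * X y.1 y.2 := by
  simp only [Matrix.sum_apply, mul_apply, conjTranspose_apply, bk, of_apply, Complex.star_def,
    sum_mul]
  rw [sum_comm_cycle, Fintype.sum_prod_type]
  refine sum_congr rfl fun c _ => ?_
  rw [sum_comm]
  refine sum_congr rfl fun d _ => ?_
  rw [← kp_shuffle, ← kp_gram h, sum_mul]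
  exact sum_congr rfl fun j _ => by ring

theorem bk_one : ∑ j, bk u j * (bk u j)ᴴ = 1 := by
  ext a b
  have := bk_apply h 1 a b
  simp only [Matrix.mul_one, one_apply] at this
  rw [this, one_apply]
  exact kp_iv h (a, b)

theorem bk_one' : ∑ j, (bk u j)ᴴ * bk u j = 1 := by
  ext c d
  simp only [Matrix.sum_apply, mul_apply, conjTranspose_apply, bk, of_apply, Complex.star_def]
  rw [sum_comm]
  simp only [mul_comm (conj _), kp_gram h]
  have e : ∀ a, kp u (a, d) (a, c) = conj (kp u (d, c) (a, a)) := fun a => by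
    rw [kp_conj, kp_shuffle]
  simp only [e]
  rw [← map_sum, ← sum_iv (fun y => kp u (d, c) y)]
  simp only [mul_comm (iv _), kp_iv h, iv_conj]
  simp [iv, one_apply, eq_comm]

theorem bk_fix (i : F2) : ∑ j, bk u j * bk u i * (bk u j)ᴴ = bk u i := by
  ext a b
  rw [bk_apply h]
  exact kp_sq h (a, b) i

theorem seventh : ∃ v : OrthonormalBasis (Fin 6) ℂ (EuclideanSpace ℂ (Fin 6)), ∀ a q,
    (∑ x, conj (u q x) * v a x) * conj (∑ x, conj (u q x) * v a x) = 1 / 6 := by
  obtain ⟨v, hv⟩ := kraus_basis (bk u) (bk_one' h) (bk_one h) (bk_fix h)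
  refine ⟨v, fun a q => ?_⟩
  choose β hβ using hv a
  obtain ⟨w, hw⟩ : ∃ w : Fin 6 → ℂ, (v a).ofLp = w := ⟨_, rfl⟩
  rw [hw] at hβ ⊢
  have hn : ∑ x, conj (w x) * w x = 1 := by
    have := orthonormal_iff_ite.1 v.orthonormal a a
    rw [if_pos rfl, PiLp.inner_apply] at this
    rw [← this, ← hw]
    exact sum_congr rfl fun x _ => by rw [RCLike.inner_apply, mul_comm]
  have h1 : ∑ j, β j * conj (β j) = 1 := by
    have e : ∀ j, star w ⬝ᵥ (((bk u j)ᴴ * bk u j) *ᵥ w) = β j * conj (β j) := fun j => by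
      rw [← mulVec_mulVec, dotProduct_mulVec, ← star_mulVec, hβ]
      simp only [star_smul, smul_dotProduct, dotProduct_smul, smul_eq_mul, Complex.star_def]
      have : star w ⬝ᵥ w = 1 := hn
      rw [this]
      ring
    simp only [← e]
    rw [← dotProduct_sum, ← sum_mulVec, bk_one' h, one_mulVec]
    exact hn
  have h2 : ∑ j, bk u j * vecMulVec w (star w) * (bk u j)ᴴ = vecMulVec w (star w) := by
    have e : ∀ j, bk u j * vecMulVec w (star w) * (bk u j)ᴴ =
        (β j * conj (β j)) • vecMulVec w (star w) := fun j => by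
      rw [mul_vecMulVec, vecMulVec_mul, ← star_mulVec, hβ]
      ext x y
      simp [vecMulVec_apply]
      ring
    simp only [e]
    rw [← sum_smul, h1, one_smul]
  let g : F2 → ℂ := fun p => (∑ x, conj (u p x) * w x) * conj (∑ x, conj (u p x) * w x)
  have h3 : ∀ x, ∑ p, wv u p x * g p = iv x := fun x => by
    have h4 := bk_apply h (vecMulVec w (star w)) x.1 x.2
    rw [h2, kp_apply u x fun y => vecMulVec w (star w) y.1 y.2, sum_iv] at h4
    have e1 : ∑ a, vecMulVec w (star w) a a = 1 := by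
      rw [← hn]
      exact sum_congr rfl fun x _ => by simp [vecMulVec_apply, mul_comm]
    have e2 : ∀ p, ∑ y : F2, conj (wv u p y) * vecMulVec w (star w) y.1 y.2 = g p := fun p => by
      simp only [g]
      rw [map_sum, sum_mul_sum, Fintype.sum_prod_type]
      refine sum_congr rfl fun a _ => sum_congr rfl fun b _ => ?_
      simp only [wv, map_mul, Complex.conj_conj, vecMulVec_apply, Pi.star_apply, Complex.star_def]
      ring
    simp only [e1, e2] at h4
    linear_combination h4
  have h5 : ∀ k, ∑ i, g (k, i) = 1 := fun k => by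
    simp only [g, map_sum, sum_mul_sum, map_mul, Complex.conj_conj]
    rw [sum_comm, ← hn]
    refine sum_congr rfl fun x _ => ?_
    rw [sum_comm]
    have e : ∀ y, ∑ i, conj (u (k, i) x) * w x * (u (k, i) y * conj (w y)) =
        if y = x then w x * conj (w y) else 0 := fun y => by
      rw [← mul_boole, ← h.cpl k y x, mul_sum]
      exact sum_congr rfl fun i _ => by ring
    simp only [e, sum_ite_eq', mem_univ, if_true]
    exact mul_comm _ _
  have h6 : ∑ x, conj (wv u q x) * ∑ p, wv u p x * g p = 1 := by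
    simp only [h3]
    simp only [mul_comm _ (iv _), sum_iv, wv, map_mul, Complex.conj_conj, h.nrm]
  have h7 : ∑ x, conj (wv u q x) * ∑ p, wv u p x * g p =
      ∑ p, g p * (if p.1 = q.1 then (if p.2 = q.2 then 1 else 0) else 1 / 6 : ℂ) := by
    simp only [mul_sum]
    rw [sum_comm]
    refine sum_congr rfl fun p _ => ?_
    simp only [← mul_assoc, ← sum_mul, wv_wv h, eq_comm (a := q.1), eq_comm (a := q.2)]
    ring
  rw [h7, sum_ip q g 1 h5] at h6
  show g q = 1 / 6
  linear_combination h6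

end Vale.Agent.P355
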