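import Vale.Agent.P355.MSeven
import Vale.Agent.P355.MWeiner

/-! There are no six mutually unbiased bases in dimension six. -/

namespace Vale.Agent.P355

open Finset ComplexConjugate

theorem no_six (B : Fin 6 → OrthonormalBasis (Fin 6) ℂ (EuclideanSpace ℂ (Fin 6)))
    (hB : ∀ k l, k ≠ l → ∀ i j, ‖inner ℂ (B k i) (B l j)‖ ^ 2 = 1 / 6) : False := by
  have e : ∀ x y : EuclideanSpace ℂ (Fin 6), ∑ a, conj (x a) * y a = inner ℂ x y := fun x y => by
    rw [PiLp.inner_apply]
    exact sum_congr rfl fun a _ => by rw [RCLike.inner_apply, mul_comm]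
  have h : Six fun p a => B p.1 p.2 a := by
    refine ⟨?_, fun p => ?_, fun k a b => ?_⟩
    · rintro ⟨k, i⟩ ⟨l, j⟩
      rw [e]
      by_cases hkl : k = l
      · subst hkl
        rw [orthonormal_iff_ite.1 (B k).orthonormal]
        by_cases hij : i = j <;> simp [hij]
      · rw [Complex.mul_conj, Complex.normSq_eq_norm_sq, hB k l hkl, if_neg hkl]
        norm_num
    · rw [e, orthonormal_iff_ite.1 (B p.1).orthonormal, if_pos rfl]
    · have := (B k).sum_inner_mul_inner (EuclideanSpace.single a 1) (EuclideanSpace.single b 1)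
      simp only [EuclideanSpace.inner_single_left, EuclideanSpace.inner_single_right, map_one,
        one_mul] at this
      rw [this]
      simp [eq_comm]
  obtain ⟨v, hv⟩ := seventh h
  have hv' : ∀ k i a, ‖inner ℂ (B k i) (v a)‖ ^ 2 = 1 / 6 := fun k i a => by
    have := hv a (k, i)
    rw [e, Complex.mul_conj, Complex.normSq_eq_norm_sq] at this
    apply Complex.ofReal_injective
    rw [this]
    norm_num
  refine no_seven (Fin.cons v B) fun k l hkl i j => ?_
  rcases Fin.eq_zero_or_eq_succ k with rfl | ⟨k, rfl⟩ <;>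
    rcases Fin.eq_zero_or_eq_succ l with rfl | ⟨l, rfl⟩
  · exact absurd rfl hkl
  · rw [Fin.cons_zero, Fin.cons_succ, norm_inner_symm]
    exact hv' l j i
  · rw [Fin.cons_zero, Fin.cons_succ]
    exact hv' k i j
  · rw [Fin.cons_succ, Fin.cons_succ]
    exact hB k l (fun h => hkl (congrArg _ h)) i j

end Vale.Agent.P355
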