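import Vale.Agent.P355.MRep

/-! Column codes, hash tables of keys, and the passage from raw keys to canonical keys. -/

namespace Vale.Agent.P355

open Finset

def okc (c : ℕ) : Bool :=
  decide (1 ≤ c / 16 ∧ c / 16 ≤ 15 ∧ 1 ≤ c % 16 ∧ 9 ≤ c / 16 + c % 16 ∧ c / 16 + c % 16 ≤ 23)
def da (c : ℕ) : ℤ := if okc c then (c / 16 : ℕ) - 8 else 0
def db (c : ℕ) : ℤ := if okc c then (c % 16 : ℕ) - 8 else 0
def c12 (c : ℕ) : ℕ := if okc c then 16 * (c % 16) + c / 16 else 136
def c23 (c : ℕ) : ℕ := if okc c then 16 * (c / 16) + (24 - c / 16 - c % 16) else 136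
def cng (c : ℕ) : ℕ := if okc c then 16 * (16 - c / 16) + (16 - c % 16) else 136

theorem da_mk {x y : ℕ} (h : 1 ≤ x ∧ x ≤ 15 ∧ 1 ≤ y ∧ y ≤ 15 ∧ 9 ≤ x + y ∧ x + y ≤ 23) :
    da (16 * x + y) = x - 8 ∧ db (16 * x + y) = y - 8 := by
  have h1 : (16 * x + y) / 16 = x := by omega
  have h2 : (16 * x + y) % 16 = y := by omega
  have h3 : okc (16 * x + y) = true := by
    rw [okc, h1, h2, decide_eq_true_eq]
    omega
  rw [da, db, if_pos h3, if_pos h3, h1, h2]
  exact ⟨rfl, rfl⟩

theorem d12 (c : ℕ) : da (c12 c) = db c ∧ db (c12 c) = da c := by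
  by_cases h : okc c = true
  · rw [c12, da.eq_1 c, db.eq_1 c, if_pos h, if_pos h, if_pos h]
    rw [okc, decide_eq_true_eq] at h
    exact da_mk (by omega)
  · rw [c12, da.eq_1 c, db.eq_1 c, if_neg h, if_neg h, if_neg h]
    decide

theorem d23 (c : ℕ) : da (c23 c) = da c ∧ db (c23 c) = -da c - db c := by
  by_cases h : okc c = true
  · rw [c23, da.eq_1 c, db.eq_1 c, if_pos h, if_pos h, if_pos h]
    rw [okc, decide_eq_true_eq] at h
    have := da_mk (x := c / 16) (y := 24 - c / 16 - c % 16) (by omega)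
    omega
  · rw [c23, da.eq_1 c, db.eq_1 c, if_neg h, if_neg h, if_neg h]
    decide

theorem dng (c : ℕ) : da (cng c) = -da c ∧ db (cng c) = -db c := by
  by_cases h : okc c = true
  · rw [cng, da.eq_1 c, db.eq_1 c, if_pos h, if_pos h, if_pos h]
    rw [okc, decide_eq_true_eq] at h
    have := da_mk (x := 16 - c / 16) (y := 16 - c % 16) (by omega)
    omega
  · rw [cng, da.eq_1 c, db.eq_1 c, if_neg h, if_neg h, if_neg h]
    decide

def va (c : ℕ → ℕ) : Zv := fun i => da (c i)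
def vb (c : ℕ → ℕ) : Zv := fun i => db (c i)
noncomputable def val (u : Fr) (m : ℕ) (c : ℕ → ℕ) : ℝ := valZ u m (va c) (vb c)

theorem val_msc (u : Fr) (m : ℕ) {c c' : ℕ → ℕ} (h : msc c = msc c') : val u m c = val u m c' := by
  rw [msc_eq, msc_eq] at h
  obtain ⟨π, hπ⟩ := perm_of_pow (f := fun i => c i) (g := fun i => c' i) (by omega)
  rw [val, val, ← valZ_prm u m (va c') (vb c') π]
  exact congrArg₂ _ (funext fun i => congrArg da (hπ i).symm)
    (funext fun i => congrArg db (hπ i).symm)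

noncomputable def cm (g c : ℕ) : ℕ :=
  frc (cnd (g.testBit 0) (c12 c) c) fun c1 => frc (cnd (g.testBit 1) (c23 c1) c1) fun c2 =>
    frc (cnd (g.testBit 2) (c12 c2) c2) fun c3 => cnd (g.testBit 3) (cng c3) c3
noncomputable def mm (g m : ℕ) : ℕ :=
  frc (cnd (g.testBit 0) (m12 m) m) fun m1 => frc (cnd (g.testBit 1) (m23 m1) m1) fun m2 =>
    frc (cnd (g.testBit 2) (m12 m2) m2) fun m3 => mkm (m3.testBit 0) (m3.testBit 1) (m3.testBit 2)

theorem val_12 (u : Fr) (b : Bool) (m : ℕ) (c : ℕ → ℕ) :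
    val u (cnd b (m12 m) m) (fun i => cnd b (c12 (c i)) (c i)) = val u m c := by
  cases b
  · rfl
  · rw [val, val, ← valZ_12 u m]
    exact congrArg₂ _ (funext fun i => (d12 _).1) (funext fun i => (d12 _).2)

theorem val_23 (u : Fr) (b : Bool) (m : ℕ) (c : ℕ → ℕ) :
    val u (cnd b (m23 m) m) (fun i => cnd b (c23 (c i)) (c i)) = val u m c := by
  cases b
  · rfl
  · rw [val, val, ← valZ_23 u m]
    exact congrArg₂ _ (funext fun i => (d23 _).1) (funext fun i => (d23 _).2)

theorem val_ng {u : Fr} (h : Good u) (b : Bool) (m : ℕ) (c : ℕ → ℕ) :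
    val u (mkm (m.testBit 0) (m.testBit 1) (m.testBit 2)) (fun i => cnd b (cng (c i)) (c i)) =
      val u m c := by
  have e : ∀ a b, valZ u (mkm (m.testBit 0) (m.testBit 1) (m.testBit 2)) a b = valZ u m a b :=
    fun a b => sum_congr rfl fun σ _ => by rw [TT_mkm, TT]
  rw [val, e]
  cases b
  · rfl
  · rw [val, ← valZ_neg h m (va c)]
    exact congrArg₂ _ (funext fun i => (dng _).1) (funext fun i => (dng _).2)

theorem val_cm {u : Fr} (h : Good u) (g m : ℕ) (c : ℕ → ℕ) :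
    val u (mm g m) (fun i => cm g (c i)) = val u m c := by
  simp only [mm, cm, frc_eq]
  rw [val_ng h, val_12, val_23, val_12]

theorem mm_lt (g m : ℕ) : mm g m < 8 := by
  simp only [mm, frc_eq]
  exact mkm_lt _ _ _

structure Tab where
  dat : ℕ
  dsp : ℕ
  r : ℕ
  m : ℕ

def ent (t : Tab) (n : ℕ) : ℕ := Nat.land (Nat.shiftRight t.dat (Nat.mul 76 n)) 75557863725914323419135
def col (E i : ℕ) : ℕ := Nat.land (Nat.shiftRight E (Nat.mul 8 i)) 255
def tag (E : ℕ) : ℕ := Nat.land (Nat.shiftRight E 48) 7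
def key (t : Tab) (n : ℕ) : ℕ := Nat.add (tag (ent t n)) (msc (col (ent t n)))
def dsp (t : Tab) (b : ℕ) : ℕ := Nat.land (Nat.shiftRight t.dsp (Nat.mul 12 b)) 4095
def sz (t : Tab) : ℕ := Nat.succ t.m
def pos (S s n : ℕ) : ℕ := Nat.mul 152 (Nat.add (Nat.mul S n) s)
noncomputable def put (t : Tab) (S s K D : ℕ) : ℕ :=
  frc (Nat.mod K t.r) fun b => frc (Nat.mod (Nat.add K (dsp t b)) (sz t)) fun n =>
    cnd (Nat.beq (key t n) K) (Nat.shiftLeft D (pos S s n)) (pz (Nat.mul S (sz t)))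
def ms (s : ℕ) : ℕ := if s = 3 then 7 else s
noncomputable def FT (u : Fr) (t : Tab) (S i : ℕ) : ℝ :=
  val u (tag (ent t (i / S)) + ms (i % S)) (col (ent t (i / S)))

theorem put_rep (u : Fr) (t : Tab) {S s S' m D B : ℕ} {r : ℕ → ℤ} (c : ℕ → ℕ) (hm : m < 8)
    (hD : Dig S' D B r) (hs : s + S' ≤ S) :
    Rep (S * sz t) (FT u t S) (put t S s (m + msc c) D) B
      (∑ j ∈ range S', r j * val u (m + ms (s + j)) c) := by
  simp only [put, frc_eq, cnd_eq]
  have hn : Nat.mod (Nat.add (m + msc c) (dsp t (Nat.mod (m + msc c) t.r))) (sz t) < sz t :=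
    Nat.mod_lt _ (Nat.succ_pos _)
  generalize Nat.mod (Nat.add (m + msc c) (dsp t (Nat.mod (m + msc c) t.r))) (sz t) = n at hn ⊢
  split_ifs with hk
  · have h1 : tag (ent t n) + msc (col (ent t n)) = m + msc c := Nat.eq_of_beq_eq_true hk
    have h2 : tag (ent t n) ≤ 7 := Nat.and_le_right
    have h3 := msc_eq c
    have h4 := msc_eq (col (ent t n))
    have h5 : tag (ent t n) = m := by omega
    have h6 : msc (col (ent t n)) = msc c := by omega
    have h7 : S * n + s + S' ≤ S * sz t := by nlinarith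
    rw [pos, shl_eq]
    refine (Rep.shift (FT u t S) hD h7).mono le_rfl (sum_congr rfl fun j hj => ?_)
    have hj' := mem_range.1 hj
    have e1 : (S * n + s + j) / S = n := by
      rw [add_assoc, Nat.mul_add_div (by omega), Nat.div_eq_of_lt (by omega), add_zero]
    have e2 : (S * n + s + j) % S = s + j := by
      rw [add_assoc, Nat.mul_add_mod, Nat.mod_eq_of_lt (by omega)]
    rw [FT, e1, e2, h5, val_msc u _ h6]
  · exact Or.inl (pz_eq _).ge

noncomputable def zc (m : ℕ) (c : ℕ → ℕ) : Bool :=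
  (Nat.beq (loop 6 fun i => (da (c i)).toNat) 1 && Nat.beq (loop 6 fun i => (-da (c i)).toNat) 1) ||
  (m.testBit 0 && Nat.beq (loop 6 fun i => (da (c i)).toNat) 2 &&
    Nat.beq (loop 6 fun i => (-da (c i)).toNat) 2)

theorem val_zc {u : Fr} (h : Good u) {m : ℕ} {c : ℕ → ℕ} (hz : zc m c = true) : val u m c = 0 := by
  simp only [zc, loop_eq, Bool.or_eq_true, Bool.and_eq_true, Nat.beq_eq,
    ← Fin.sum_univ_eq_sum_range (fun i => (da (c i)).toNat),
    ← Fin.sum_univ_eq_sum_range (fun i => (-da (c i)).toNat), and_assoc] at hz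
  exact valZ_zero h m _ _ hz

noncomputable def pc (g c : ℕ) : ℕ := pw (cm g c)
noncomputable def kk (g E : ℕ) : ℕ :=
  Nat.add (Nat.add (Nat.add (Nat.add (Nat.add (frc (col E 0) (pc g)) (frc (col E 1) (pc g)))
    (frc (col E 2) (pc g))) (frc (col E 3) (pc g))) (frc (col E 4) (pc g))) (frc (col E 5) (pc g))
def hint (E s : ℕ) : ℕ := Nat.land (Nat.shiftRight E (Nat.add 51 (Nat.mul 5 s))) 31
noncomputable def pushE (G : Tab) (E s D : ℕ) : ℕ :=
  cnd (Nat.beq D 0) 0 (frc (hint E s) fun g => frc (Nat.add (tag E) (ms s)) fun m =>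
    cnd (g.testBit 4) (cnd (zc (mm g m) fun i => frc (col E i) (cm g)) 0 (pz (Nat.mul 1 (sz G))))
      (put G 1 0 (Nat.add (mm g m) (kk g E)) D))
noncomputable def stage (G t : Tab) (N : ℕ) : ℕ :=
  cnd (Nat.blt N (pz (Nat.mul 5 (sz t))))
    (loop (sz t) fun n => loop 5 fun s => pushE G (ent t n) s (dig N (Nat.add (Nat.mul 5 n) s)))
    (pz (Nat.mul 1 (sz G)))

theorem pushE_rep {u : Fr} (h : Good u) (G : Tab) (E s p q : ℕ) :
    Rep (1 * sz G) (FT u G 1) (pushE G E s (p + q * YY)) (p + q)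
      (((p : ℝ) - q) * val u (tag E + ms s) (col E)) := by
  simp only [pushE, frc_eq, cnd_eq, Nat.add_eq]
  rw [← val_cm h (hint E s)]
  split_ifs with h0 h1 h2
  · have h3 : p + q * YY = 0 := Nat.eq_of_beq_eq_true h0
    have h4 : 0 < YY := by rw [YY]; positivity
    have hp : p = 0 := by omega
    have hq : q = 0 := by
      rcases Nat.mul_eq_zero.1 (show q * YY = 0 by omega) with h5 | h5 <;> omega
    exact (Rep.zero _ _).mono (Nat.zero_le _) (by simp [hp, hq])
  · exact (Rep.zero _ _).mono (Nat.zero_le _) (by rw [val_zc h h2, mul_zero])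
  · exact Or.inl (pz_eq _).ge
  · have e : kk (hint E s) E = msc fun i => cm (hint E s) (col E i) := by
      simp only [kk, frc_eq]
      rfl
    have hD : Dig 1 (p + q * YY) (p + q) fun _ => (p : ℤ) - q :=
      ⟨fun _ => p, fun _ => q, by simp, by simp, fun _ _ => rfl⟩
    rw [e]
    exact (put_rep u G _ (mm_lt _ _) hD le_rfl).mono le_rfl (by simp [ms])

theorem sum_five {M : Type*} [AddCommMonoid M] (n : ℕ) (f : ℕ → M) :
    ∑ i ∈ range (5 * n), f i = ∑ k ∈ range n, ∑ s ∈ range 5, f (5 * k + s) := by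
  induction n with
  | zero => simp
  | succ n ih => rw [mul_add, mul_one, sum_range_add, ih, sum_range_succ _ n]

theorem stage_rep {u : Fr} (h : Good u) (G t : Tab) {N B : ℕ} {v : ℝ}
    (hN : Rep (5 * sz t) (FT u t 5) N B v) (hB : B < YY) :
    Rep (1 * sz G) (FT u G 1) (stage G t N) B v := by
  rw [stage, cnd_eq]
  split_ifs with h0
  · rw [Nat.blt_eq, pz_eq] at h0
    obtain ⟨p, q, h1, h2, h3⟩ := hN.out h0 hB
    rw [sum_five] at h2 h3
    refine (Rep.loop _ fun n hn => Rep.loop 5 fun s hs => ?_).mono h2 h3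
    have e1 : (5 * n + s) / 5 = n := by omega
    have e2 : (5 * n + s) % 5 = s := by omega
    have e3 := (h1 (5 * n + s) (by omega)).1
    rw [FT, e1, e2]
    exact e3 ▸ pushE_rep h G _ s _ _
  · exact Or.inl (pz_eq _).ge

noncomputable def nn (E : ℕ) : Bool :=
  (Nat.testBit (tag E) 0 == Nat.testBit (tag E) 1) &&
    Nat.beq (loop 6 fun i => frc (col E i) fun c => (da c + db c).natAbs) 0
noncomputable def finE (E D : ℕ) : ℕ :=
  Nat.mul (frc (tag E) bnd)
    (Nat.add (Nat.sub (lo D) (hi D)) (cnd (nn E) 0 (Nat.sub (hi D) (lo D))))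
noncomputable def fin (G : Tab) (N : ℕ) : ℕ := loop (sz G) fun n => finE (ent G n) (dig N n)

theorem fin_bound {u : Fr} (h : Good u) (G : Tab) {N B : ℕ} {v : ℝ}
    (hR : Rep (1 * sz G) (FT u G 1) N B v) (hN : N < XX ^ (1 * sz G)) (hB : B < YY) :
    v ≤ 720 * fin G N := by
  obtain ⟨p, q, h1, -, h3⟩ := hR.out hN hB
  rw [h3, fin, loop_eq, one_mul, Nat.cast_sum, mul_sum]
  refine sum_le_sum fun n hn => ?_
  obtain ⟨e1, e2⟩ := h1 n (by simpa using hn)
  have hY : 0 < YY := by omega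
  have e3 : lo (dig N n) = p n := by
    rw [lo_eq, e1, Nat.add_mul_mod_self_right, Nat.mod_eq_of_lt e2]
  have e4 : hi (dig N n) = q n := by
    rw [hi_eq, e1, Nat.add_mul_div_right _ _ hY, Nat.div_eq_of_lt e2, zero_add]
  have e5 : FT u G 1 n = val u (tag (ent G n)) (col (ent G n)) := by
    simp [FT, Nat.mod_one, ms]
  have hb := abs_le.1 (valZ_abs h (tag (ent G n)) (va (col (ent G n))) (vb (col (ent G n))))
  rw [e5, finE, e3, e4, frc_eq, cnd_eq, val]
  simp only [Nat.mul_eq, Nat.add_eq, Nat.sub_eq]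
  generalize p n = x, q n = y at *
  rcases le_total x y with hxy | hxy
  · obtain ⟨d, rfl⟩ := Nat.exists_eq_add_of_le hxy
    rw [Nat.sub_eq_zero_of_le hxy, Nat.add_sub_cancel_left]
    have hd : (0 : ℝ) ≤ d := Nat.cast_nonneg d
    split_ifs with hn
    · simp only [nn, loop_eq, frc_eq, Bool.and_eq_true, beq_iff_eq, Nat.beq_eq,
        sum_eq_zero_iff] at hn
      have e6 : vb (col (ent G n)) = -va (col (ent G n)) := funext fun i => by
        have := hn.2 i (mem_range.2 i.2)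
        simp only [va, vb, Pi.neg_apply]
        omega
      have := valZ_nonneg h _ hn.1 (va (col (ent G n)))
      rw [e6]
      push_cast
      nlinarith
    · push_cast
      nlinarith [hb.1]
  · obtain ⟨d, rfl⟩ := Nat.exists_eq_add_of_le hxy
    rw [Nat.sub_eq_zero_of_le hxy, Nat.add_sub_cancel_left, ite_self]
    have hd : (0 : ℝ) ≤ d := Nat.cast_nonneg d
    push_cast
    nlinarith [hb.2]

end Vale.Agent.P355
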