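import Vale.Agent.P355.MZero

/-! Symmetries, linear relations and bounds for the averaged triple products. -/

namespace Vale.Agent.P355

open Finset ComplexConjugate

theorem mon_prm (v : Fin 6 → ℂ) (a : Zv) (π : Equiv.Perm (Fin 6)) :
    mon v (a ∘ π) = mon (fun c => v (π.symm c)) a := by
  unfold mon
  rw [← Equiv.prod_comp π (fun c => v (π.symm c) ^ a c)]
  simp

theorem tau_prm (u : Fr) (k : Fin 6) (a : Zv) (π : Equiv.Perm (Fin 6)) :
    tau u k (a ∘ π) = tau (prm u π⁻¹) k a := sum_congr rfl fun _ _ => mon_prm _ a π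

theorem phi_prm (u : Fr) (a : Zv) (π : Equiv.Perm (Fin 6)) :
    phi u (a ∘ π) = phi (prm u π⁻¹) a := sum_congr rfl fun k _ => tau_prm u k a π

theorem sel_prm (u : Fr) (b : Bool) (k : Fin 6) (a : Zv) (π : Equiv.Perm (Fin 6)) :
    sel u b k (a ∘ π) = sel (prm u π⁻¹) b k a := by
  simp only [sel, tau_prm, phi_prm]

theorem TT_prm (u : Fr) (m : ℕ) (a b : Zv) (π : Equiv.Perm (Fin 6)) :
    TT u m (a ∘ π) (b ∘ π) = TT (prm u π⁻¹) m a b := by
  have e : -(a ∘ π) - b ∘ π = (-a - b) ∘ π := rfl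
  simp only [TT, T3, e, sel_prm, phi_prm]

theorem valZ_prm (u : Fr) (m : ℕ) (a b : Zv) (π : Equiv.Perm (Fin 6)) :
    valZ u m (a ∘ π) (b ∘ π) = valZ u m a b := by
  unfold valZ
  rw [← Equiv.sum_comp (Equiv.mulRight π⁻¹) (fun σ => (TT (prm u σ) m a b).re)]
  exact sum_congr rfl fun σ _ => by rw [TT_prm]; rfl

def mkm (b0 b1 b2 : Bool) : ℕ := b0.toNat + 2 * b1.toNat + 4 * b2.toNat
def m12 (m : ℕ) : ℕ := mkm (m.testBit 1) (m.testBit 0) (m.testBit 2)
def m23 (m : ℕ) : ℕ := mkm (m.testBit 0) (m.testBit 2) (m.testBit 1)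

theorem TT_mkm (u : Fr) (b0 b1 b2 : Bool) (a b : Zv) :
    TT u (mkm b0 b1 b2) a b = T3 u b0 b1 b2 a b (-a - b) := by
  cases b0 <;> cases b1 <;> cases b2 <;> rfl

theorem mkm_lt (b0 b1 b2 : Bool) : mkm b0 b1 b2 < 8 := by
  cases b0 <;> cases b1 <;> cases b2 <;> decide

theorem T3_12 (u : Fr) (b0 b1 b2 : Bool) (a b c : Zv) :
    T3 u b1 b0 b2 b a c = T3 u b0 b1 b2 a b c := by
  unfold T3
  rw [Bool.and_comm b1 b0, mul_comm (phi u b)]
  simp only [mul_comm (sel u b1 _ b)]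

theorem T3_23 (u : Fr) (b0 b1 b2 : Bool) (a b c : Zv) :
    T3 u b0 b2 b1 a c b = T3 u b0 b1 b2 a b c := by
  unfold T3
  rw [Bool.and_right_comm b0 b2 b1, mul_right_comm (phi u a)]
  simp only [mul_right_comm (sel u b0 _ a) (sel u b2 _ c)]

theorem valZ_12 (u : Fr) (m : ℕ) (a b : Zv) : valZ u (m12 m) b a = valZ u m a b := by
  refine sum_congr rfl fun σ _ => ?_
  have e : -b - a = -a - b := by ring
  rw [m12, TT_mkm, e, T3_12, TT]

theorem valZ_23 (u : Fr) (m : ℕ) (a b : Zv) : valZ u (m23 m) a (-a - b) = valZ u m a b := by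
  refine sum_congr rfl fun σ _ => ?_
  have e : -a - (-a - b) = b := by ring
  rw [m23, TT_mkm, e, T3_23, TT]

theorem TT0 (u : Fr) (a b : Zv) :
    TT u 0 a b = ∑ k, tau u k a * tau u k b * tau u k (-a - b) := rfl
theorem TT1 (u : Fr) (a b : Zv) :
    TT u 1 a b = ∑ k, phi u a * tau u k b * tau u k (-a - b) := rfl
theorem TT2 (u : Fr) (a b : Zv) :
    TT u 2 a b = ∑ k, tau u k a * phi u b * tau u k (-a - b) := rfl
theorem TT4 (u : Fr) (a b : Zv) :
    TT u 4 a b = ∑ k, tau u k a * tau u k b * phi u (-a - b) := rfl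
theorem TT7 (u : Fr) (a b : Zv) :
    TT u 7 a b = ∑ k, tau u k a * phi u b * phi u (-a - b) := by
  rw [← sum_mul, ← sum_mul]
  rfl

theorem valZ_E0B (u : Fr) (a : Zv) : valZ u 4 a (-a) = 6 * valZ u 0 a (-a) := by
  unfold valZ
  rw [mul_sum]
  refine sum_congr rfl fun σ _ => ?_
  have e : TT (prm u σ) 4 a (-a) = (6 : ℝ) * TT (prm u σ) 0 a (-a) := by
    simp only [TT4, TT0, sub_self, tau_zero, phi_zero, mul_sum]
    exact sum_congr rfl fun k _ => by push_cast; ring
  rw [e, Complex.re_ofReal_mul]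

theorem valZ_E0C (u : Fr) (a : Zv) : valZ u 7 a 0 = 6 * valZ u 4 a 0 := by
  unfold valZ
  rw [mul_sum]
  refine sum_congr rfl fun σ _ => ?_
  have e : TT (prm u σ) 7 a 0 = (6 : ℝ) * TT (prm u σ) 4 a 0 := by
    simp only [TT4, TT7, tau_zero, phi_zero, mul_sum]
    exact sum_congr rfl fun k _ => by push_cast; ring
  rw [e, Complex.re_ofReal_mul]

theorem valZ_const (u : Fr) : valZ u 0 0 0 = 720 * 1296 := by
  simp [valZ, TT0, tau_zero, Fintype.card_perm, Nat.factorial]
  norm_num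

theorem valZ_sum {ι : Type*} (u : Fr) (s : Finset ι) (m : ℕ) (a b : ι → Zv) (p : ι → Prop)
    [DecidablePred p] :
    ∑ r ∈ s, (if p r then 0 else valZ u m (a r) (b r)) =
      ∑ σ : Equiv.Perm (Fin 6), (∑ r ∈ s, if p r then 0 else TT (prm u σ) m (a r) (b r)).re := by
  simp only [Complex.re_sum]
  rw [sum_comm]
  refine sum_congr rfl fun r _ => ?_
  split_ifs <;> simp [valZ]

variable {u : Fr} (h : Good u)
include h

theorem valZ_neg (m : ℕ) (a b : Zv) : valZ u m (-a) (-b) = valZ u m a b := by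
  refine sum_congr rfl fun σ _ => ?_
  have e : - -a - -b = -(-a - b) := by ring
  have h' := h.prm σ
  have : TT (prm u σ) m (-a) (-b) = conj (TT (prm u σ) m a b) := by
    simp only [TT, T3, e, sel_neg h', phi_neg h']
    split_ifs <;> simp
  rw [this, Complex.conj_re]

theorem valZ_E1 (m : ℕ) (hm : m = 0 ∨ m = 4) (a b : Zv) :
    ∑ r, valZ u m (a + ee r) (b - ee r) = valZ u m (a + b) 0 := by
  unfold valZ
  rw [sum_comm]
  refine sum_congr rfl fun σ _ => ?_
  rw [← Complex.re_sum]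
  have e : ∀ r, -(a + ee r) - (b - ee r) = -(a + b) - 0 := fun r => by ring
  rcases hm with rfl | rfl
  · simp only [TT0, e]
    rw [sum_comm]
    simp only [← sum_mul, tau_E1 (h.prm σ)]
  · simp only [TT4, e]
    rw [sum_comm]
    simp only [← sum_mul, tau_E1 (h.prm σ)]

theorem valZ_E2 (m m' : ℕ) (hm : m = 2 ∧ m' = 0 ∨ m = 7 ∧ m' = 4) (a b : Zv) :
    ∑ r, ∑ t, (if r = t then 0 else valZ u m (a + ee r - ee t) (b - ee r + ee t)) =
      6 * valZ u m' (a + b) 0 - 6 * valZ u m' a b := by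
  simp only [valZ_sum u univ m (fun t => a + ee _ - ee t) (fun t => b - ee _ + ee t)]
  rw [sum_comm, valZ, valZ, mul_sum, mul_sum, ← sum_sub_distrib]
  refine sum_congr rfl fun σ _ => ?_
  rw [← Complex.re_sum, ← Complex.re_ofReal_mul, ← Complex.re_ofReal_mul, ← Complex.sub_re]
  refine congrArg Complex.re ?_
  have e : ∀ r t, -(a + ee r - ee t) - (b - ee r + ee t) = -a - b := fun r t => by ring
  have e' : -(a + b) - 0 = -a - b := by ring
  have key : ∀ w : Fin 6 → ℂ, (∑ r, ∑ t, if r = t then 0 else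
      ∑ k, tau (prm u σ) k (a + ee r - ee t) * phi (prm u σ) (b - ee r + ee t) * w k) =
      ((6 : ℝ) : ℂ) * ∑ k, tau (prm u σ) k (a + b) * tau (prm u σ) k 0 * w k -
        ((6 : ℝ) : ℂ) * ∑ k, tau (prm u σ) k a * tau (prm u σ) k b * w k := fun w => by
    have h1 : ∀ r t : Fin 6, (if r = t then 0 else
        ∑ k, tau (prm u σ) k (a + ee r - ee t) * phi (prm u σ) (b - ee r + ee t) * w k) =
        ∑ k, (if r = t then 0 else
          tau (prm u σ) k (a + ee r - ee t) * phi (prm u σ) (b - ee r + ee t)) * w k :=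
      fun r t => by split_ifs <;> simp
    simp only [h1]
    rw [sum_comm_cycle, mul_sum, mul_sum, ← sum_sub_distrib]
    refine sum_congr rfl fun k _ => ?_
    simp only [← sum_mul, phi_E2 (h.prm σ)]
    push_cast
    ring
  rcases hm with ⟨rfl, rfl⟩ | ⟨rfl, rfl⟩
  · simp only [TT0, TT2, e, e']
    exact key _
  · simp only [TT4, TT7, e, e']
    exact key fun _ => _

theorem valZ_zero (m : ℕ) (a b : Zv)
    (hz : (∑ c, (a c).toNat = 1 ∧ ∑ c, (-a c).toNat = 1) ∨
      (m.testBit 0 = true ∧ ∑ c, (a c).toNat = 2 ∧ ∑ c, (-a c).toNat = 2)) :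
    valZ u m a b = 0 := by
  refine sum_eq_zero fun σ _ => ?_
  have h' := h.prm σ
  have h1 : ∀ k, sel (prm u σ) (m.testBit 0) k a = 0 := fun k => by
    rcases hz with ⟨hp, hn⟩ | ⟨hb, hp, hn⟩
    · simp [sel, phi, tau_zc h' _ hp hn]
    · simp [sel, hb, phi_zc h' hp hn]
  unfold TT T3
  split_ifs with hc
  · have h2 := h1 0
    simp only [Bool.and_eq_true] at hc
    simp only [sel, hc.1.1, if_true] at h2
    simp [h2]
  · simp only [h1, zero_mul, sum_const_zero, Complex.zero_re]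

omit h in
def sb (b : Bool) : ℕ := if b then 36 else 6
omit h in
def bnd (m : ℕ) : ℕ :=
  if m.testBit 0 && m.testBit 1 && m.testBit 2 then 46656
  else 6 * (sb (m.testBit 0) * sb (m.testBit 1) * sb (m.testBit 2))

theorem sel_norm (b : Bool) (k : Fin 6) (a : Zv) : ‖sel u b k a‖ ≤ sb b := by
  cases b
  · simpa [sel, sb] using tau_norm h k a
  · simpa [sel, sb] using phi_norm h a

theorem valZ_abs (m : ℕ) (a b : Zv) : |valZ u m a b| ≤ 720 * bnd m := by
  have h1 : ∀ σ, |(TT (prm u σ) m a b).re| ≤ bnd m := fun σ => by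
    refine (Complex.abs_re_le_norm _).trans ?_
    have h' := h.prm σ
    unfold TT T3 bnd
    split_ifs with hc
    · rw [norm_mul, norm_mul]
      calc _ ≤ (36 : ℝ) * 36 * 36 := by
            gcongr <;> exact phi_norm h' _
        _ = _ := by norm_num
    · refine (norm_sum_le _ _).trans ((sum_le_sum (g := fun _ =>
        (sb (m.testBit 0) * sb (m.testBit 1) * sb (m.testBit 2) : ℝ)) fun k _ => ?_).trans ?_)
      · rw [norm_mul, norm_mul]
        gcongr <;> exact sel_norm h' _ _ _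
      · simp
  refine (abs_sum_le_sum_abs _ _).trans ((sum_le_sum fun σ _ => h1 σ).trans ?_)
  simp [Fintype.card_perm, Nat.factorial]

theorem valZ_nonneg (m : ℕ) (hm : m.testBit 0 = m.testBit 1) (a : Zv) : 0 ≤ valZ u m a (-a) := by
  refine sum_nonneg fun σ _ => ?_
  have h' := h.prm σ
  unfold TT T3
  rw [← hm, sub_self]
  split_ifs with hc
  · rw [phi_neg h', Complex.mul_conj, phi_zero]
    simpa using Complex.normSq_nonneg _
  · rw [Complex.re_sum]
    refine sum_nonneg fun k _ => ?_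
    rw [sel_neg h', Complex.mul_conj]
    cases m.testBit 2 <;> simpa [sel, phi_zero, tau_zero] using Complex.normSq_nonneg _

end Vale.Agent.P355
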