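import Vale.Agent.P355.MBasic

/-! Vanishing of the monomial sums of degree one and two. -/

namespace Vale.Agent.P355

open Finset ComplexConjugate

variable {u : Fr} (h : Good u)
include h

theorem col_orth (k : Fin 6) {a b : Fin 6} (hab : a ≠ b) :
    ∑ i, u k i a * conj (u k i b) = 0 := by
  let H : Matrix (Fin 6) (Fin 6) ℂ := Matrix.of (u k)
  have h1 : H * ((6 : ℂ)⁻¹ • H.conjTranspose) = 1 := by
    ext i j
    rw [Matrix.mul_smul, Matrix.smul_apply, Matrix.mul_apply, Matrix.one_apply]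
    have := h.orth k i j
    simp only [H, Matrix.of_apply, Matrix.conjTranspose_apply, Complex.star_def, this]
    split_ifs <;> simp
  have h2 : (((6 : ℂ)⁻¹ • H.conjTranspose) * H) b a = (1 : Matrix (Fin 6) (Fin 6) ℂ) b a := by
    rw [mul_eq_one_comm.1 h1]
  rw [Matrix.smul_mul, Matrix.smul_apply, Matrix.mul_apply, Matrix.one_apply_ne hab.symm] at h2
  simp only [H, Matrix.of_apply, Matrix.conjTranspose_apply, Complex.star_def, smul_eq_mul,
    mul_eq_zero, inv_eq_zero, OfNat.ofNat_ne_zero, false_or] at h2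
  rw [← h2]
  exact sum_congr rfl fun i _ => mul_comm _ _

theorem tau_deg1 (k : Fin 6) {a b : Fin 6} (hab : a ≠ b) : tau u k (ee a - ee b) = 0 := by
  simp only [tau, mon_sub_ee (h.unit k _), mon_ee]
  exact col_orth h k hab

omit h in
noncomputable def S4 (u : Fr) (x : (Fin 6 × Fin 6) × Fin 6 × Fin 6) : ℂ :=
  ∑ p : Fin 6 × Fin 6,
    u p.1 p.2 x.1.1 * u p.1 p.2 x.1.2 * conj (u p.1 p.2 x.2.1) * conj (u p.1 p.2 x.2.2)

theorem S4_total : ∑ x, S4 u x * conj (S4 u x) = 85536 := by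
  have h1 : ∀ x, S4 u x * conj (S4 u x) = ∑ p : Fin 6 × Fin 6, ∑ q : Fin 6 × Fin 6,
      (u p.1 p.2 x.1.1 * conj (u q.1 q.2 x.1.1)) * (u p.1 p.2 x.1.2 * conj (u q.1 q.2 x.1.2)) *
      ((conj (u p.1 p.2 x.2.1) * u q.1 q.2 x.2.1) * (conj (u p.1 p.2 x.2.2) * u q.1 q.2 x.2.2)) :=
    fun x => by
      simp only [S4, map_sum, map_mul, Complex.conj_conj]
      rw [sum_mul_sum]
      exact sum_congr rfl fun p _ => sum_congr rfl fun q _ => by ring
  have h2 : ∀ f g : Fin 6 → ℂ, ∑ x : (Fin 6 × Fin 6) × Fin 6 × Fin 6,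
      f x.1.1 * f x.1.2 * (g x.2.1 * g x.2.2) = ((∑ c, f c) * ∑ c, g c) ^ 2 := fun f g => by
    rw [mul_pow, sq, sq, sum_mul_sum, sum_mul_sum, ← Fintype.sum_prod_type',
      ← Fintype.sum_prod_type', sum_mul_sum, ← Fintype.sum_prod_type']
  have h3 : ∀ p q : Fin 6 × Fin 6, (∑ c, u p.1 p.2 c * conj (u q.1 q.2 c)) *
      ∑ c, conj (u p.1 p.2 c) * u q.1 q.2 c =
      if p.1 = q.1 then (if p.2 = q.2 then 36 else 0) else 6 := by
    rintro ⟨k, i⟩ ⟨l, j⟩
    by_cases hkl : k = l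
    · subst hkl
      have h4 : ∑ c, conj (u k i c) * u k j c = if j = i then 6 else 0 := by
        rw [← h.orth k j i]
        exact sum_congr rfl fun t _ => mul_comm _ _
      simp only [h4, h.orth, if_true]
      by_cases hij : i = j
      · subst hij
        norm_num
      · simp [hij]
    · simp only [hkl, if_false]
      exact h.unb k l hkl i j
  simp only [h1]
  rw [sum_comm_cycle, sum_comm_cycle]
  rw [sum_congr rfl fun p _ => sum_congr rfl fun q _ =>
    (h2 (fun c => u p.1 p.2 c * conj (u q.1 q.2 c))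
      (fun c => conj (u p.1 p.2 c) * u q.1 q.2 c)).trans (congrArg (· ^ 2) (h3 p q))]
  have h5 : ∀ p q : Fin 6 × Fin 6, (if p.1 = q.1 then (if p.2 = q.2 then 36 else 0) else 6 : ℂ) ^ 2
      = ((if p.1 = q.1 then (if p.2 = q.2 then 1296 else 0) else 36 : ℕ) : ℂ) := fun p q => by
    split_ifs <;> norm_num
  simp only [h5]
  have h6 : ∑ p : Fin 6 × Fin 6, ∑ q : Fin 6 × Fin 6,
      (if p.1 = q.1 then (if p.2 = q.2 then 1296 else 0) else 36 : ℕ) = 85536 := by decide +kernel
  exact_mod_cast h6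

theorem S4_zero {a b c d : Fin 6} (hca : c ≠ a) (hcb : c ≠ b) : S4 u ((a, b), c, d) = 0 := by
  let g : (Fin 6 × Fin 6) × Fin 6 × Fin 6 → ℕ := fun x =>
    if (x.2.1 = x.1.1 ∧ x.2.2 = x.1.2) ∨ (x.2.1 = x.1.2 ∧ x.2.2 = x.1.1) then 1296 else 0
  have hg : ∑ x, g x = 85536 := by decide +kernel
  have h0 : ∑ x, (Complex.normSq (S4 u x) - g x) = 0 := by
    have h1 := S4_total h
    simp only [Complex.mul_conj] at h1
    have h2 : ∑ x, Complex.normSq (S4 u x) = 85536 := by exact_mod_cast h1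
    have h3 : ∑ x, (g x : ℝ) = 85536 := by exact_mod_cast hg
    rw [sum_sub_distrib, h2, h3, sub_self]
  have hn : ∀ x ∈ univ, 0 ≤ Complex.normSq (S4 u x) - g x := by
    rintro ⟨⟨a, b⟩, c, d⟩ -
    simp only [g]
    split_ifs with hx
    · have h4 : S4 u ((a, b), c, d) = 36 := by
        have h5 : ∀ p : Fin 6 × Fin 6, u p.1 p.2 a * u p.1 p.2 b * conj (u p.1 p.2 c) *
            conj (u p.1 p.2 d) = 1 := fun p => by
          have ha := h.unit p.1 p.2 a
          have hb := h.unit p.1 p.2 b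
          rcases hx with ⟨rfl, rfl⟩ | ⟨rfl, rfl⟩
          · linear_combination (u p.1 p.2 d * conj (u p.1 p.2 d)) * ha + hb
          · linear_combination (u p.1 p.2 c * conj (u p.1 p.2 c)) * ha + hb
        simp [S4, h5]
      rw [h4]
      norm_num
    · simpa using Complex.normSq_nonneg _
  have h6 := (sum_eq_zero_iff_of_nonneg hn).1 h0 ((a, b), c, d) (mem_univ _)
  simp only [g, hca, hcb, false_and, or_self, if_false, Nat.cast_zero, sub_zero] at h6
  exact Complex.normSq_eq_zero.1 h6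

theorem phi_deg2 {a b c d : Fin 6} (hca : c ≠ a) (hcb : c ≠ b) :
    phi u (ee a + ee b - ee c - ee d) = 0 := by
  rw [← S4_zero h (d := d) hca hcb, S4, Fintype.sum_prod_type]
  simp only [phi, tau, mon_sub_ee (h.unit _ _), mon_add_ee (h.unit _ _), mon_ee]

omit h in
theorem nat_split {f : Fin 6 → ℕ} {n : ℕ} (hf : ∑ c, f c = n + 1) :
    ∃ a, ∃ g : Fin 6 → ℕ, ∑ c, g c = n ∧ ∀ c, (f c : ℤ) = ee a c + g c := by
  obtain ⟨a, -, ha⟩ := exists_ne_zero_of_sum_ne_zero (s := univ) (f := f) (by omega)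
  refine ⟨a, fun c => f c - if c = a then 1 else 0, ?_, fun c => ?_⟩
  · have h1 : ∑ c, f c = ∑ c, ((f c - if c = a then 1 else 0) + if c = a then 1 else 0) :=
      sum_congr rfl fun c _ => by
        split_ifs with hc
        · subst hc
          omega
        · rfl
    rw [sum_add_distrib] at h1
    simp only [sum_ite_eq', mem_univ, if_true] at h1
    beta_reduce
    omega
  · unfold ee
    beta_reduce
    split_ifs with hc
    · subst hc
      omega
    · simp

omit h in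
theorem nat_one {f : Fin 6 → ℕ} (hf : ∑ c, f c = 1) : ∃ a, ∀ c, (f c : ℤ) = ee a c := by
  obtain ⟨a, g, hg, hc⟩ := nat_split (n := 0) hf
  refine ⟨a, fun c => ?_⟩
  rw [hc, (sum_eq_zero_iff.1 hg) c (mem_univ _)]
  simp

theorem tau_zc (k : Fin 6) {a : Zv} (hp : ∑ c, (a c).toNat = 1) (hn : ∑ c, (-a c).toNat = 1) :
    tau u k a = 0 := by
  obtain ⟨x, hx⟩ := nat_one hp
  obtain ⟨y, hy⟩ := nat_one hn
  have e : a = ee x - ee y := funext fun c => by
    rw [Pi.sub_apply, ← hx, ← hy]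
    omega
  have hxy : x ≠ y := by
    rintro rfl
    have h1 := hx x
    have h2 := hy x
    simp only [ee, if_true] at h1 h2
    omega
  rw [e, tau_deg1 h k hxy]

theorem phi_zc {a : Zv} (hp : ∑ c, (a c).toNat = 2) (hn : ∑ c, (-a c).toNat = 2) :
    phi u a = 0 := by
  obtain ⟨x, g, hg, hx⟩ := nat_split (n := 1) hp
  obtain ⟨x', hx'⟩ := nat_one hg
  obtain ⟨y, g', hg', hy⟩ := nat_split (n := 1) hn
  obtain ⟨y', hy'⟩ := nat_one hg'
  have e : a = ee x + ee x' - ee y - ee y' := funext fun c => by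
    have h1 := hx c
    have h2 := hy c
    rw [hx'] at h1
    rw [hy'] at h2
    simp only [Pi.sub_apply, Pi.add_apply]
    omega
  have h1 := hx y
  have h2 := hy y
  have h3 := hx' y
  simp only [ee, if_true] at h1 h2 h3
  rw [e]
  refine phi_deg2 h ?_ ?_
  · intro hc
    rw [if_pos hc] at h1
    omega
  · intro hc
    rw [if_pos hc] at h3
    omega

end Vale.Agent.P355
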